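import Vale.Agent.P281.H83.HKT.Defs
import Vale.Agent.P281.H834.HK.Lat2

/-!
# P281, project T-HKT (helper22): the forms `c s + ∑ m_jk u_j ∧ u_k`, and the dimension count
-/

open Set Filter Metric MeasureTheory
open scoped Topology ContDiff ComplexConjugate ComplexOrder

noncomputable section

namespace Vale.Agent.P281.H22.HKT

open Vale.Agent.P281.H64.TK Vale.Agent.P281.H64.TK.TS
open Vale.Agent.P281.H64 (Cm)
open Vale.Agent.P281.H83.HK (Hol2)
open Vale.Agent.P281.H83.HKT Vale.Agent.P281.H834.HK

section alg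
variable {a d : ℕ}

theorem uu_add (m m' : Matrix (Fin a) (Fin a) ℂ) (u : Matrix (Fin a) (Fin d) ℂ) :
    uu (m + m') u = uu m u + uu m' u := by
  simp only [uu, Matrix.mul_add, Matrix.add_mul]

theorem uu_smul (c : ℂ) (m : Matrix (Fin a) (Fin a) ℂ) (u : Matrix (Fin a) (Fin d) ℂ) :
    uu (c • m) u = c • uu m u := by
  simp only [uu, Matrix.mul_smul, Matrix.smul_mul]

theorem uu_zero (u : Matrix (Fin a) (Fin d) ℂ) : uu 0 u = 0 := by simp [uu]

/-- adding `∑ m_jk u_j ∧ u_k` does not change `dt` -/
theorem dt_add_uu (u : Matrix (Fin a) (Fin d) ℂ) (s : Matrix (Fin d) (Fin d) ℂ)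
    (m : Matrix (Fin a) (Fin a) ℂ) : dt u (s + uu m u) = dt u s := by
  have h1 : Matrix.fromBlocks (s + uu m u) u.transpose (-u) 0 =
      Matrix.fromBlocks s u.transpose (-u) 0 *
        Matrix.fromBlocks (1 : Matrix (Fin d) (Fin d) ℂ) 0 (m * u) 1 := by
    rw [Matrix.fromBlocks_multiply]
    simp only [Matrix.mul_one, Matrix.mul_zero, Matrix.zero_mul, zero_add, add_zero]
    rw [uu, Matrix.mul_assoc]
  unfold dt
  rw [h1, Matrix.det_mul, Matrix.det_fromBlocks_zero₁₂, Matrix.det_one, Matrix.det_one, mul_one,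
    mul_one]

theorem dt_zero (h : a < d) (u : Matrix (Fin a) (Fin d) ℂ) : dt u 0 = 0 := by
  obtain ⟨v, hv0, hv⟩ : ∃ v : Fin d → ℂ, v ≠ 0 ∧ u.mulVec v = 0 := by
    by_contra hcon
    push Not at hcon
    have h1 : Function.Injective (Matrix.mulVecLin u) := by
      refine (injective_iff_map_eq_zero _).2 fun v hv => ?_
      by_contra h2
      exact hcon v h2 hv
    have h2 := LinearMap.finrank_le_finrank_of_injective h1
    simp only [Module.finrank_fin_fun] at h2
    omega
  unfold dt
  refine Matrix.exists_mulVec_eq_zero_iff.1 ⟨Sum.elim v 0, ?_, ?_⟩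
  · intro h1
    apply hv0
    funext k
    exact congrFun h1 (Sum.inl k)
  · rw [Matrix.fromBlocks_mulVec]
    funext k
    rcases k with k | k
    · simp
    · simp only [Sum.elim_inr, Matrix.neg_mulVec, Matrix.zero_mulVec, Pi.add_apply, Pi.neg_apply,
        Pi.zero_apply, add_zero]
      have h1 := congrFun hv k
      have h2 : u.mulVec (Sum.elim v (0 : Fin a → ℂ) ∘ Sum.inl) = u.mulVec v := rfl
      rw [h2, h1]
      simp

theorem dt_uu (h : a < d) (u : Matrix (Fin a) (Fin d) ℂ) (m : Matrix (Fin a) (Fin a) ℂ) :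
    dt u (uu m u) = 0 := by
  have h1 := dt_add_uu u 0 m
  rwa [zero_add, dt_zero h] at h1

/-- the rows of `u` are independent -/
theorem vecMul_of_dt {u : Matrix (Fin a) (Fin d) ℂ} {s : Matrix (Fin d) (Fin d) ℂ}
    (h : dt u s ≠ 0) {v : Fin a → ℂ} (hv : Matrix.vecMul v u = 0) : v = 0 := by
  by_contra h0
  apply h
  unfold dt
  refine Matrix.exists_vecMul_eq_zero_iff.1 ⟨Sum.elim 0 v, ?_, ?_⟩
  · intro h1
    apply h0
    funext k
    exact congrFun h1 (Sum.inr k)
  · rw [Matrix.vecMul_fromBlocks]
    funext k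
    rcases k with k | k
    · simp only [Sum.elim_inl, Matrix.vecMul_neg, Pi.add_apply, Pi.neg_apply, Pi.zero_apply]
      have h2 : Matrix.vecMul (Sum.elim (0 : Fin d → ℂ) v ∘ Sum.inr) u = Matrix.vecMul v u := rfl
      have h3 : Matrix.vecMul (Sum.elim (0 : Fin d → ℂ) v ∘ Sum.inl) s =
        Matrix.vecMul (0 : Fin d → ℂ) s := rfl
      rw [h2, h3, hv]
      simp
    · have h3 : Matrix.vecMul (Sum.elim (0 : Fin d → ℂ) v ∘ Sum.inl) u.transpose =
        Matrix.vecMul (0 : Fin d → ℂ) u.transpose := rfl
      simp only [Sum.elim_inr, Pi.add_apply]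
      rw [h3]
      simp

theorem uu_inj {u : Matrix (Fin a) (Fin d) ℂ} {s : Matrix (Fin d) (Fin d) ℂ}
    (h : dt u s ≠ 0) {m : Matrix (Fin a) (Fin a) ℂ} (hm : uu m u = 0) : m = 0 := by
  have h1 : m * u = 0 := by
    ext p k
    have h2 : Matrix.vecMul (fun p => (m * u) p k) u = 0 := by
      funext j
      have h3 := congrFun (congrFun hm j) k
      rw [uu, Matrix.mul_assoc, Matrix.mul_apply] at h3
      simp only [Matrix.vecMul, dotProduct, Pi.zero_apply]
      rw [← show ∑ p, u.transpose j p * (m * u) p k = (0 : ℂ) from h3]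
      exact Finset.sum_congr rfl fun p _ => by rw [Matrix.transpose_apply, mul_comm]
    exact congrFun (vecMul_of_dt h h2) p
  ext p q
  have h2 : Matrix.vecMul (m p) u = 0 := by
    funext k
    exact congrFun (congrFun h1 p) k
  exact congrFun (vecMul_of_dt h h2) q

theorem comb_inj (had : a < d) {u : Matrix (Fin a) (Fin d) ℂ} {s : Matrix (Fin d) (Fin d) ℂ}
    (h : dt u s ≠ 0) {c : ℂ} {m : Matrix (Fin a) (Fin a) ℂ} (hm : c • s + uu m u = 0) :
    c = 0 ∧ m = 0 := by
  have hc : c = 0 := by
    by_contra h0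
    apply h
    have h1 : s = uu (-(c⁻¹ • m)) u := by
      have h2 : c • s = -uu m u := eq_neg_of_add_eq_zero_left hm
      have h3 : c⁻¹ • (c • s) = c⁻¹ • (-uu m u) := congrArg _ h2
      rw [smul_smul, inv_mul_cancel₀ h0, one_smul] at h3
      rw [h3, ← neg_smul, uu_smul, neg_smul, smul_neg]
    rw [h1]
    exact dt_uu had u _
  refine ⟨hc, uu_inj h ?_⟩
  rwa [hc, zero_smul, zero_add] at hm

/-- The skew matrices. -/
def skw (a : ℕ) : Submodule ℂ (Matrix (Fin a) (Fin a) ℂ) where
  carrier := {m | m.transpose = -m}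
  add_mem' := by
    intro m m' h h'
    show (m + m').transpose = -(m + m')
    rw [Matrix.transpose_add, show m.transpose = -m from h, show m'.transpose = -m' from h',
      neg_add]
  zero_mem' := by
    show (0 : Matrix (Fin a) (Fin a) ℂ).transpose = -0
    simp
  smul_mem' := by
    intro c m h
    show (c • m).transpose = -(c • m)
    rw [Matrix.transpose_smul, show m.transpose = -m from h, smul_neg]

end alg

section forms
variable {a d : ℕ} {E Γ : Type} [TopologicalSpace E] [Group Γ] [MulAction Γ E] {S : Sheets d E Γ}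

/-- `∑ m_jk u_j ∧ u_k` is a closed holomorphic 2-form -/
theorem hol2_uu {u : Fin S.N → Cm d → Matrix (Fin a) (Fin d) ℂ} (hu : Hol1 S u)
    {m : Matrix (Fin a) (Fin a) ℂ} (hm : m.transpose = -m) :
    Hol2 S (fun i z => uu m (u i z)) := by
  have hent : ∀ i (z : Cm d) (j k : Fin d), uu m (u i z) j k =
      ∑ p, ∑ q, m p q * (u i z p j * u i z q k) := by
    intro i z j k
    rw [uu, Matrix.mul_apply, Finset.sum_comm]
    refine Finset.sum_congr rfl fun q _ => ?_
    rw [Matrix.mul_apply, Finset.sum_mul]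
    refine Finset.sum_congr rfl fun p _ => ?_
    rw [Matrix.transpose_apply]
    ring
  refine ⟨fun i j k => ?_, fun i z hz => ?_, fun i z hz j k l => ?_,
    fun i j z hz z' hz' θ h1 h2 h3 => ?_⟩
  · simp only [hent]
    refine DifferentiableOn.fun_sum fun p _ => DifferentiableOn.fun_sum fun q _ => ?_
    exact ((hu.hol i p j).mul (hu.hol i q k)).const_mul _
  · show (uu m (u i z)).transpose = -uu m (u i z)
    rw [uu, Matrix.transpose_mul, Matrix.transpose_mul, Matrix.transpose_transpose, hm,
      Matrix.neg_mul, Matrix.mul_neg, Matrix.mul_assoc]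
  · have hd : ∀ p j, DifferentiableAt ℂ (fun z => u i z p j) z := fun p j =>
      (hu.hol i p j).differentiableAt (isOpen_ball.mem_nhds hz)
    have hdd : ∀ l j k, dd l (fun z => uu m (u i z) j k) z =
        ∑ p, ∑ q, m p q * (dd l (fun z => u i z p j) z * u i z q k +
          u i z p j * dd l (fun z => u i z q k) z) := by
      intro l j k
      have h1 : HasFDerivAt (fun z => ∑ p, ∑ q, (m p q) * (u i z p j * u i z q k))
          (∑ p, ∑ q, (m p q) • (u i z p j • fderiv ℂ (fun z => u i z q k) z +
            u i z q k • fderiv ℂ (fun z => u i z p j) z)) z :=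
        HasFDerivAt.fun_sum fun p _ => HasFDerivAt.fun_sum fun q _ =>
          ((hd p j).hasFDerivAt.fun_mul (hd q k).hasFDerivAt).const_mul (m p q)
      have h2 : (fun z => uu m (u i z) j k) =
          fun z => ∑ p, ∑ q, (m p q) * (u i z p j * u i z q k) := funext fun z => hent i z j k
      show fderiv ℂ (fun z => uu m (u i z) j k) z (Pi.single l 1) = _
      rw [h2, h1.fderiv, sum_apply]
      refine Finset.sum_congr rfl fun p _ => ?_
      rw [sum_apply]
      refine Finset.sum_congr rfl fun q _ => ?_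
      simp only [ContinuousLinearMap.smul_apply, ContinuousLinearMap.add_apply, smul_eq_mul]
      unfold dd
      ring
    rw [hdd, hdd, hdd]
    have hA : ∀ p j l, dd l (fun z => u i z p j) z = dd j (fun z => u i z p l) z := fun p j l =>
      hu.closed i z hz p l j
    simp only [← Finset.sum_add_distrib, ← mul_add]
    set T : Fin a → Fin a → ℂ := fun p q =>
      dd l (fun z => u i z p j) z * u i z q k + u i z p j * dd l (fun z => u i z q k) z +
        (dd j (fun z => u i z p k) z * u i z q l + u i z p k * dd j (fun z => u i z q l) z) +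
        (dd k (fun z => u i z p l) z * u i z q j + u i z p l * dd k (fun z => u i z q j) z) with hT
    have hTs : ∀ p q, T p q = T q p := by
      intro p q
      simp only [hT]
      rw [hA p j l, hA q l j, hA p k j, hA q j k, hA p l k, hA q k l]
      ring
    have hms : ∀ p q, m p q = -m q p := by
      intro p q
      have h1 := congrFun (congrFun hm q) p
      simpa using h1
    have hS : ∑ p, ∑ q, m p q * T p q = -∑ p, ∑ q, m p q * T p q := by
      conv_lhs => rw [Finset.sum_comm]
      rw [← Finset.sum_neg_distrib]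
      refine Finset.sum_congr rfl fun q _ => ?_
      rw [← Finset.sum_neg_distrib]
      refine Finset.sum_congr rfl fun p _ => ?_
      rw [hTs p q, hms p q, neg_mul]
    have h0 : ∑ p, ∑ q, m p q * T p q = 0 := by
      have h1 : (2 : ℂ) * ∑ p, ∑ q, m p q * T p q = 0 := by
        linear_combination hS
      rcases mul_eq_zero.1 h1 with h2 | h2
      · norm_num at h2
      · exact h2
    exact h0
  · show uu m (u i z) = (H64.TK.jac θ z).transpose * uu m (u j z') * H64.TK.jac θ z
    rw [hu.change i j z hz z' hz' θ h1 h2 h3, uu, uu, Matrix.transpose_mul]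
    simp only [Matrix.mul_assoc]

end forms

end Vale.Agent.P281.H22.HKT
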