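import Vale.Agent.P281.H22.HKT.NewS

/-!
# P281, project T-HKT (helper22), R3: adapted coordinates (implicit functions)
-/

open Set Filter Metric
open scoped Topology ContDiff ComplexConjugate

set_option linter.unusedSectionVars false

noncomputable section

namespace Vale.Agent.P281.H22.HKT

open Vale.Agent.P281.H64 (Cm)
open Vale.Agent.P281.H64.TK Vale.Agent.P281.H864.K
open Vale.Agent.P281.H842.HKT (p1 p2 ap pe p1_ap p2_ap ap_p norm_eq mem_ball_iff)

variable {a m : ℕ}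

/-- a linear map to `ℂ^m` injective on the kernel -/
theorem exists_lin (A : Cm (a + m) →L[ℂ] Cm a) (hA : Function.Surjective A) :
    ∃ L : Cm (a + m) →L[ℂ] Cm m, ∀ v, A v = 0 → L v = 0 → v = 0 := by
  have h1 : Module.finrank ℂ (LinearMap.ker (A : Cm (a + m) →ₗ[ℂ] Cm a)) = m := by
    have h2 := LinearMap.finrank_range_add_finrank_ker (A : Cm (a + m) →ₗ[ℂ] Cm a)
    have h3 : LinearMap.range (A : Cm (a + m) →ₗ[ℂ] Cm a) = ⊤ := LinearMap.range_eq_top.2 hA
    rw [h3, finrank_top, Module.finrank_fin_fun, Module.finrank_fin_fun] at h2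
    omega
  have e : LinearMap.ker (A : Cm (a + m) →ₗ[ℂ] Cm a) ≃ₗ[ℂ] Cm m :=
    LinearEquiv.ofFinrankEq _ _ (by rw [h1, Module.finrank_fin_fun])
  obtain ⟨P, hP⟩ := (LinearMap.ker (A : Cm (a + m) →ₗ[ℂ] Cm a)).subtype.exists_leftInverse_of_injective
    (by rw [Submodule.ker_subtype])
  refine ⟨LinearMap.toContinuousLinearMap ((e : _ →ₗ[ℂ] Cm m).comp P), fun v hv hL => ?_⟩
  have h2 : P v = 0 := e.injective (by rw [map_zero]; exact hL)
  have h3 : P (⟨v, hv⟩ : LinearMap.ker (A : Cm (a + m) →ₗ[ℂ] Cm a)) = ⟨v, hv⟩ :=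
    LinearMap.congr_fun hP ⟨v, hv⟩
  have h4 : (⟨v, hv⟩ : LinearMap.ker (A : Cm (a + m) →ₗ[ℂ] Cm a)) = 0 := by
    rw [← h3]
    exact h2
  exact congrArg Subtype.val h4

/-- **adapted coordinates** -/
theorem exists_coord {G : Cm (a + m) → Cm a} {z₀ : Cm (a + m)}
    (hz₀ : z₀ ∈ ball (0 : Cm (a + m)) 3) (hG : AnalyticAt ℂ G z₀)
    (hs : Function.Surjective (fderiv ℂ G z₀)) :
    ∃ (χ : Cm (a + m) → Cm (a + m)) (R : ℝ), 0 < R ∧ χ 0 = z₀ ∧
      (∀ u ∈ ball (0 : Cm (a + m)) R, AnalyticAt ℂ χ u ∧ χ u ∈ ball (0 : Cm (a + m)) 3 ∧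
        (jac χ u).det ≠ 0 ∧ G (χ u) = G z₀ + p1 u) ∧
      ∀ u ∈ ball (0 : Cm (a + m)) R, ∀ v ∈ ball (0 : Cm (a + m)) R, χ u = χ v → u = v := by
  obtain ⟨L, hL⟩ := exists_lin (fderiv ℂ G z₀) hs
  set Φ : Cm (a + m) → Cm (a + m) := fun z => (pe a m).symm (G z - G z₀, L (z - z₀)) with hΦ
  have hΦa : ∀ z, AnalyticAt ℂ G z → AnalyticAt ℂ Φ z := by
    intro z hz
    have h1 : AnalyticAt ℂ (fun z => (G z - G z₀, L (z - z₀))) z :=
      (hz.sub analyticAt_const).prod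
        ((L.analyticAt _).comp' (analyticAt_id.sub analyticAt_const))
    exact (((pe a m).symm : Cm a × Cm m →L[ℂ] Cm (a + m)).analyticAt _).comp' h1
  have hΦ0 : Φ z₀ = 0 := by
    simp only [hΦ, sub_self, map_zero]
    exact map_zero (pe a m).symm
  have hder : ∀ v, fderiv ℂ Φ z₀ v = (pe a m).symm (fderiv ℂ G z₀ v, L v) := by
    intro v
    have h1 : HasFDerivAt (fun z => G z - G z₀) (fderiv ℂ G z₀) z₀ :=
      hG.differentiableAt.hasFDerivAt.sub_const _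
    have h2 : HasFDerivAt (fun z => L (z - z₀)) L z₀ := by
      have h3 : HasFDerivAt (fun z : Cm (a + m) => z - z₀) (ContinuousLinearMap.id ℂ _) z₀ :=
        (hasFDerivAt_id z₀).sub_const _
      exact L.hasFDerivAt.comp z₀ h3
    have h3 := ((pe a m).symm : Cm a × Cm m →L[ℂ] Cm (a + m)).hasFDerivAt.comp z₀
      (h1.prodMk h2)
    have h4 : fderiv ℂ Φ z₀ = _ := h3.fderiv
    rw [h4]
    rfl
  have hdet : (jac Φ z₀).det ≠ 0 := by
    refine det_ne_of_inj ((injective_iff_map_eq_zero _).2 fun v hv => ?_)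
    rw [hder] at hv
    have h1 := (pe a m).symm.injective (hv.trans (map_zero (pe a m).symm).symm)
    exact hL v (congrArg Prod.fst h1) (congrArg Prod.snd h1)
  obtain ⟨χ, a1, a2, a3, a4⟩ := inv_hol (hΦa z₀ hG) hdet
  rw [hΦ0] at a1 a2 a3 a4
  have t1 : Tendsto χ (𝓝 0) (𝓝 z₀) := by
    have := a1.continuousAt.tendsto
    rwa [a2] at this
  have h1 : ∀ᶠ u in 𝓝 (0 : Cm (a + m)), (∀ᶠ v in 𝓝 u, Φ (χ v) = v) ∧ AnalyticAt ℂ χ u ∧
      χ u ∈ ball (0 : Cm (a + m)) 3 ∧ AnalyticAt ℂ G (χ u) := by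
    filter_upwards [eventually_eventually_nhds.2 a4, a1.eventually_analyticAt,
      t1.eventually (isOpen_ball.mem_nhds hz₀), t1.eventually hG.eventually_analyticAt]
      with u b1 b2 b3 b4
    exact ⟨b1, b2, b3, b4⟩
  obtain ⟨R, hR, hball⟩ := Metric.eventually_nhds_iff_ball.1 h1
  refine ⟨χ, R, hR, a2, fun u hu => ?_, fun u hu v hv huv => ?_⟩
  · obtain ⟨b1, b2, b3, b4⟩ := hball u hu
    refine ⟨b2, b3, ?_, ?_⟩
    · have h5 : jac Φ (χ u) * jac χ u = 1 := by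
        rw [← jac_comp rfl (hΦa _ b4).differentiableAt b2.differentiableAt, ← jac_id u]
        exact jac_congr b1
      intro h7
      have := congrArg Matrix.det h5
      rw [Matrix.det_mul, h7, mul_zero, Matrix.det_one] at this
      exact zero_ne_one this
    · have h5 : Φ (χ u) = u := b1.self_of_nhds
      have h6 : p1 u = G (χ u) - G z₀ := by
        conv_lhs => rw [← h5]
        exact p1_ap _ _
      rw [h6, add_sub_cancel]
  · rw [← (hball u hu).1.self_of_nhds, ← (hball v hv).1.self_of_nhds, huv]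

/-- the scaling of the two groups of coordinates -/
def scl (a m : ℕ) (ε r : ℝ) : Cm (a + m) →L[ℂ] Cm (a + m) :=
  ((pe a m).symm : Cm a × Cm m →L[ℂ] Cm (a + m)).comp
    ((((ε : ℂ) • ContinuousLinearMap.id ℂ (Cm a)).prodMap
      ((r : ℂ) • ContinuousLinearMap.id ℂ (Cm m))).comp (pe a m : Cm (a + m) →L[ℂ] Cm a × Cm m))

theorem scl_apply (ε r : ℝ) (z : Cm (a + m)) :
    scl a m ε r z = ap ((ε : ℂ) • p1 z) ((r : ℂ) • p2 z) := rfl

theorem scl_inj {ε r : ℝ} (hε : 0 < ε) (hr : 0 < r) : Function.Injective (scl a m ε r) := by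
  refine (injective_iff_map_eq_zero _).2 fun z hz => ?_
  rw [scl_apply] at hz
  have h1 : (ε : ℂ) • p1 z = 0 := by
    have := congrArg p1 hz
    rwa [p1_ap] at this
  have h2 : (r : ℂ) • p2 z = 0 := by
    have := congrArg p2 hz
    rwa [p2_ap] at this
  have h3 := (smul_eq_zero.1 h1).resolve_left (by exact_mod_cast hε.ne')
  have h4 := (smul_eq_zero.1 h2).resolve_left (by exact_mod_cast hr.ne')
  rw [← ap_p z, h3, h4]
  funext k
  refine Fin.addCases (fun k => ?_) (fun k => ?_) k <;> simp [ap]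

theorem scl_mem {ε r R : ℝ} (hε : 0 < ε) (hr : 0 < r) (h1 : 3 * ε ≤ R) (h2 : 3 * r ≤ R)
    {z : Cm (a + m)} (hz : z ∈ ball (0 : Cm (a + m)) 3) :
    scl a m ε r z ∈ ball (0 : Cm (a + m)) R := by
  obtain ⟨hz1, hz2⟩ := (mem_ball_iff z 3).1 hz
  rw [scl_apply, mem_ball_iff, p1_ap, p2_ap, mem_ball_zero_iff, mem_ball_zero_iff, norm_smul,
    norm_smul, Complex.norm_real, Complex.norm_real, Real.norm_of_nonneg hε.le,
    Real.norm_of_nonneg hr.le]
  rw [mem_ball_zero_iff] at hz1 hz2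
  constructor
  · nlinarith
  · nlinarith

end Vale.Agent.P281.H22.HKT
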