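import Vale.Agent.P281.H22.HKT.AdpC
import Vale.Agent.P281.H118.HKT.Reg
import Vale.Agent.P281.H152.RC.Spec
import Vale.Agent.P281.H727.TM.Const

/-!
# P281, project RADC (helper22), block R2: `AdpStmt`
-/

open Set Filter Metric
open scoped Topology ContDiff ComplexConjugate

set_option linter.unusedSectionVars false

noncomputable section

namespace Vale.Agent.P281.H22.HKT

open Vale.Agent.P281.H64 (Cm)
open Vale.Agent.P281.H64.TK Vale.Agent.P281.H864.K
open Vale.Agent.P281.H842.HKT (p1 p2 ap pe p1_ap p2_ap ap_p norm_eq mem_ball_iff)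
open Vale.Agent.P281.H399.QT (Qs One1 pj quo pj_eq pj_smul pj_surj)

section dat
variable {a m : ℕ} {E K : Type} [TopologicalSpace E] [Group K] [MulAction K E]
  [ContinuousConstSMul K E] {S : Sheets (a + m) E K} {F : E → Fin a → ℂ} {t₀ : Cm a} {n : ℕ}

/-- adapted sheets, followed by those of `S` -/
def mkDat (C : Fin n → Ch S F t₀) {ε : ℝ} (hε : 0 < ε) (h3 : ∀ k, 3 * ε ≤ (C k).R) :
    Dat S (n + S.N) where
  γ := Fin.append (fun k => (C k).γ) (fun _ => 1)
  i := Fin.append (fun k => (C k).i) id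
  ψ := Fin.append (fun k z => (C k).χ (scl a m ε ((C k).R / 3) z)) (fun _ z => z)
  an k := by
    refine Fin.addCases (fun k => ?_) (fun k => ?_) k
    · simp only [Fin.append_left]
      intro z hz
      exact ((C k).an _ (scl_mem hε (by have := (C k).pos; linarith) (h3 k) (by linarith)
        hz)).1.comp ((scl a m ε ((C k).R / 3)).analyticAt z)
    · simp only [Fin.append_right]
      exact fun z _ => analyticAt_id
  maps k := by
    refine Fin.addCases (fun k => ?_) (fun k => ?_) k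
    · simp only [Fin.append_left]
      intro z hz
      exact ((C k).an _ (scl_mem hε (by have := (C k).pos; linarith) (h3 k) (by linarith)
        hz)).2.1
    · simp only [Fin.append_right]
      exact fun z hz => hz
  inj k := by
    refine Fin.addCases (fun k => ?_) (fun k => ?_) k
    · simp only [Fin.append_left]
      intro z hz w hw h
      have hr : 0 < (C k).R / 3 := by have := (C k).pos; linarith
      exact scl_inj hε hr ((C k).inj _ (scl_mem hε hr (h3 k) (by linarith) hz) _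
        (scl_mem hε hr (h3 k) (by linarith) hw) h)
    · simp only [Fin.append_right]
      exact fun z _ w _ h => h
  det k := by
    refine Fin.addCases (fun k => ?_) (fun k => ?_) k
    · simp only [Fin.append_left]
      intro z hz
      have hr : 0 < (C k).R / 3 := by have := (C k).pos; linarith
      obtain ⟨h1, -, h2, -⟩ := (C k).an _ (scl_mem hε hr (h3 k) (by linarith) hz)
      rw [jac_comp rfl h1.differentiableAt (scl a m ε ((C k).R / 3)).differentiableAt,
        Matrix.det_mul]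
      refine mul_ne_zero h2 (det_ne_of_inj ?_)
      rw [ContinuousLinearMap.fderiv]
      exact scl_inj hε hr
    · simp only [Fin.append_right]
      intro z _
      rw [jac_id, Matrix.det_one]
      exact one_ne_zero
  cover e := by
    obtain ⟨γ, i, z, hz, h⟩ := S.cover e
    refine ⟨γ, Fin.natAdd n i, z, hz, ?_⟩
    simp only [Fin.append_right, one_smul, id]
    exact h

end dat

open Vale.Agent.P281.H152.RC in
/-- **R2 of RADC** -/
theorem adp : AdpStmt := by
  intro a h E K _ _ _ _ _ S F c hh hF hfin hinj hpt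
  -- discreteness
  have hdisc : ∃ δ > 0, ∀ γ, ‖c γ‖ < δ → c γ = 0 := by
    have h2 : ∀ᶠ δ : ℝ in 𝓝[>] 0, ∀ k ∈ {k : K | ‖c k‖ ≤ 1}, c k ≠ 0 → δ < ‖c k‖ :=
      (Filter.eventually_all_finite (hfin 1)).2 fun k _ => by
        by_cases hk : c k = 0
        · exact Eventually.of_forall fun δ h => absurd hk h
        · have h5 : 0 < ‖c k‖ := norm_pos_iff.2 hk
          filter_upwards [Ioo_mem_nhdsGT h5] with δ hδ _
          exact hδ.2
    have h3 : ∀ᶠ δ : ℝ in 𝓝[>] 0, δ ∈ Ioo (0 : ℝ) 1 := Ioo_mem_nhdsGT one_pos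
    obtain ⟨δ, ha, hb⟩ := (h2.and h3).exists
    refine ⟨δ, hb.1, fun γ hγ => by_contra fun h0 => ?_⟩
    have h5 : ‖c γ‖ ≤ 1 := (hγ.trans hb.2).le
    exact absurd (ha γ h5 h0) (not_lt.2 hγ.le)
  obtain ⟨B, hBs, hBc, hBr⟩ := H118.HKT.crit_small S hF hdisc
  obtain ⟨δ, hδ, hdisc⟩ := hdisc
  -- the regular value
  obtain ⟨i, z, hz, hsurj⟩ := hpt
  have h5 : Function.Surjective (fderiv ℂ (fun z => F (S.σ i z)) z) := by
    intro v
    obtain ⟨ξ, hξ⟩ := hsurj v
    exact ⟨ξ, by rw [← H118.HKT.dF_mulVec hF i hz]; exact hξ⟩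
  have h6 := (F_analyticAt hF i hz).hasStrictFDerivAt.map_nhds_eq_of_surj
    (LinearMap.range_eq_top.2 h5)
  have h7 : (fun z => F (S.σ i z)) '' ball 0 3 ∈ 𝓝 (F (S.σ i z)) := by
    rw [← h6]
    exact Filter.image_mem_map (isOpen_ball.mem_nhds hz)
  obtain ⟨t₀, ht₀B, z₁, hz₁, ht₀⟩ := (H727.TM.dense_compl_small hBs).inter_nhds_nonempty h7
  have hreg : ∀ i, ∀ z ∈ ball (0 : Cm (a + h)) 3, ∀ γ : K, F (γ • S.σ i z) = t₀ →
      Function.Surjective (fderiv ℂ (fun z => F (S.σ i z)) z) := by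
    intro i z hz γ h
    refine (hBr i z hz fun hB => ht₀B ?_).1
    rw [← h, F_smul hF]
    exact (hBc _ γ).2 hB
  obtain ⟨n, C, ε₁, hn, hε₁, hCR, hCc⟩ := exists_fin hF hreg hδ hdisc hδ ht₀
  have hε : ∃ ε : ℝ, 0 < ε ∧ (∀ k, 3 * ε ≤ (C k).R) ∧ ε ≤ ε₁ ∧ 6 * ε < δ := by
    have e1 : ∀ᶠ ε : ℝ in 𝓝[>] 0, ∀ k, ε ∈ Ioo 0 ((C k).R / 3) :=
      eventually_all.2 fun k => Ioo_mem_nhdsGT (by have := (C k).pos; linarith)
    have e2 : ∀ᶠ ε : ℝ in 𝓝[>] 0, ε ∈ Ioo 0 ε₁ := Ioo_mem_nhdsGT hε₁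
    have e3 : ∀ᶠ ε : ℝ in 𝓝[>] 0, ε ∈ Ioo 0 (δ / 6) := Ioo_mem_nhdsGT (by linarith)
    obtain ⟨ε, b1, b2, b3⟩ := (e1.and (e2.and e3)).exists
    exact ⟨ε, b2.1, fun k => by have := (b1 k).2; linarith, b2.2.le, by have := b3.2; linarith⟩
  obtain ⟨ε, hε, hεR, hεε, hεδ⟩ := hε
  refine ⟨t₀, ε, n, newS (mkDat C hε hεR), ⟨hε, hn, Nat.le_add_right _ _, ?_, ?_, ?_, ?_⟩, rfl, ?_⟩
  · intro k z hz
    have hr : 0 < (C k).R / 3 := by have := (C k).pos; linarith
    have h8 := ((C k).an _ (scl_mem hε hr (hεR k) (by linarith) hz)).2.2.2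
    have h9 : (newS (mkDat C hε hεR)).σ (Fin.castAdd S.N k) z =
        (C k).γ • S.σ (C k).i ((C k).χ (scl a h ε ((C k).R / 3) z)) := by
      show (mkDat C hε hεR).γ (Fin.castAdd S.N k) • S.σ ((mkDat C hε hεR).i (Fin.castAdd S.N k))
        ((mkDat C hε hεR).ψ (Fin.castAdd S.N k) z) = _
      simp only [mkDat, Fin.append_left]
    show F ((newS (mkDat C hε hεR)).σ (Fin.castAdd S.N k) z) = _
    rw [h9, h8, scl_apply, p1_ap]
  · intro e he
    obtain ⟨k, u, hu, hpj⟩ := hCc e (he.trans_le hεε)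
    obtain ⟨g, hg⟩ := pj_eq.1 hpj
    have hr : 0 < (C k).R / 3 := by have := (C k).pos; linarith
    have hu' : u ∈ ball (0 : Cm (a + h)) (C k).R :=
      ball_subset_ball (by have := (C k).pos; linarith) hu
    have h8 := ((C k).an u hu').2.2.2
    have hu1 := (mem_ball_iff u _).1 hu
    rw [mem_ball_zero_iff, mem_ball_zero_iff] at hu1
    have h9 : c g = p1 u - (F e - t₀) := by
      have h10 := F_smul hF g e
      rw [hg, h8] at h10
      have h11 : c g = F e + c g - F e := by rw [add_sub_cancel_left]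
      rw [h11, ← h10]
      abel
    have hcg : c g = 0 := by
      refine hdisc g ?_
      rw [h9]
      have h10 := norm_sub_le (p1 u) (F e - t₀)
      have h11 := hCR k
      linarith [hu1.1]
    have hg1 : g = 1 := hinj g hcg
    rw [hg1, one_smul] at hg
    rw [hcg] at h9
    have h10 : p1 u = F e - t₀ := (sub_eq_zero.1 h9.symm)
    refine ⟨k, ap ((ε⁻¹ : ℂ) • p1 u) ((((C k).R / 3 : ℝ) : ℂ)⁻¹ • p2 u), ?_, ?_⟩
    · rw [mem_ball_iff, p1_ap, p2_ap, mem_ball_zero_iff, mem_ball_zero_iff, norm_smul, norm_smul,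
        norm_inv, norm_inv, Complex.norm_real, Complex.norm_real, Real.norm_of_nonneg hε.le,
        Real.norm_of_nonneg hr.le, h10]
      constructor
      · rw [inv_mul_lt_iff₀ hε, mul_one]
        exact he
      · rw [inv_mul_lt_iff₀ hr, mul_one]
        exact hu1.2
    · have h9 : ∀ z, (newS (mkDat C hε hεR)).σ (Fin.castAdd S.N k) z =
          (C k).γ • S.σ (C k).i ((C k).χ (scl a h ε ((C k).R / 3) z)) := by
        intro z
        show (mkDat C hε hεR).γ (Fin.castAdd S.N k) •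
          S.σ ((mkDat C hε hεR).i (Fin.castAdd S.N k))
            ((mkDat C hε hεR).ψ (Fin.castAdd S.N k) z) = _
        simp only [mkDat, Fin.append_left]
      show (newS (mkDat C hε hεR)).σ (Fin.castAdd S.N k) _ = e
      rw [h9, scl_apply, p1_ap, p2_ap, smul_inv_smul₀ (by exact_mod_cast hε.ne'),
        smul_inv_smul₀ (by exact_mod_cast hr.ne'), ap_p]
      exact hg.symm
  · intro k e
    exact F_smul hF k e
  · intro k hk
    by_contra hlt
    push Not at hlt
    exact hk (hinj k (hdisc k (hlt.trans hεδ)))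
  · intro i i' hi
    have h8 : i' = Fin.natAdd n i := Fin.ext hi
    subst h8
    funext z
    show (mkDat C hε hεR).γ (Fin.natAdd n i) • S.σ ((mkDat C hε hεR).i (Fin.natAdd n i))
      ((mkDat C hε hεR).ψ (Fin.natAdd n i) z) = _
    simp only [mkDat, Fin.append_right, one_smul, id]

end Vale.Agent.P281.H22.HKT
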