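import Vale.Agent.P281.H22.HKT.Ift
import Vale.Agent.P281.H603.K.Base

/-!
# P281, project T-HKT (helper22), RADC block R2: finitely many adapted sheets (compactness)
-/

open Set Filter Metric
open scoped Topology ContDiff ComplexConjugate

set_option linter.unusedSectionVars false

noncomputable section

namespace Vale.Agent.P281.H22.HKT

open Vale.Agent.P281.H64 (Cm)
open Vale.Agent.P281.H64.TK Vale.Agent.P281.H864.K
open Vale.Agent.P281.H842.HKT (p1 p2 ap pe p1_ap p2_ap ap_p norm_eq mem_ball_iff)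
open Vale.Agent.P281.H399.QT (Qs One1 pj quo pj_eq pj_smul pj_surj continuous_pj t2_quo
  isQuotientMap_pj map_pj)

section cpt
variable {d : ℕ} {E K : Type} [TopologicalSpace E] [Group K] [MulAction K E]
  [ContinuousConstSMul K E]

theorem cont_sheet (S : Sheets d E K) (i : Fin S.N) : ContinuousOn (S.σ i) (ball 0 3) :=
  fun z hz => ContinuousAt.continuousWithinAt (S.map_nhds i z hz).le

/-- the manifold is compact -/
theorem compact_Qs (S : Sheets d E K) : CompactSpace (Qs K E) := by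
  refine ⟨?_⟩
  have h1 : (univ : Set (Qs K E)) =
      ⋃ i, (fun z => pj K (S.σ i z)) '' closedBall (0 : Cm d) 1 := by
    refine (eq_univ_of_forall fun x => ?_).symm
    obtain ⟨e, rfl⟩ := pj_surj x
    obtain ⟨γ, i, z, hz, he⟩ := S.cover e
    refine mem_iUnion.2 ⟨i, z, mem_closedBall_zero_iff.2 hz.le, ?_⟩
    show pj K (S.σ i z) = pj K e
    rw [← he, pj_smul]
  rw [h1]
  refine isCompact_iUnion fun i => (isCompact_closedBall _ _).image_of_continuousOn ?_
  exact continuous_pj.comp_continuousOn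
    ((cont_sheet S i).mono (closedBall_subset_ball (by norm_num)))

end cpt

variable {a m : ℕ} {E K : Type} [TopologicalSpace E] [Group K] [MulAction K E]
  [ContinuousConstSMul K E] {S : Sheets (a + m) E K} {F : E → Fin a → ℂ} {c : K → Fin a → ℂ}

theorem F_smul (hF : ∀ j, Add S (fun e => F e j) (fun γ => c γ j)) (γ : K) (e : E) :
    F (γ • e) = F e + c γ := by
  funext j
  exact (hF j).add γ e

theorem F_analyticAt (hF : ∀ j, Add S (fun e => F e j) (fun γ => c γ j)) (i : Fin S.N)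
    {z : Cm (a + m)} (hz : z ∈ ball (0 : Cm (a + m)) 3) :
    AnalyticAt ℂ (fun z => F (S.σ i z)) z := by
  rw [analyticAt_pi_iff]
  intro j
  exact MF.analyticAt_of_differentiableOn isOpen_ball ((hF j).hol i) hz

theorem F_cont (hF : ∀ j, Add S (fun e => F e j) (fun γ => c γ j)) : Continuous F := by
  rw [continuous_iff_continuousAt]
  intro e
  obtain ⟨γ, i, z, hz, he⟩ := S.cover e
  have hz3 : z ∈ ball (0 : Cm (a + m)) 3 := by
    rw [mem_ball_zero_iff]
    linarith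
  have e1 : Filter.map (fun e : E => γ • e) (𝓝 (S.σ i z)) = 𝓝 (γ • S.σ i z) :=
    (Homeomorph.smul γ).map_nhds_eq _
  rw [ContinuousAt, ← he, ← e1, ← S.map_nhds i z hz3, Filter.map_map, tendsto_map'_iff]
  have h1 : (F ∘ (fun e => γ • e) ∘ S.σ i) = fun z => F (S.σ i z) + c γ := by
    funext z
    exact F_smul hF γ _
  rw [show F ∘ ((fun e => γ • e) ∘ S.σ i) = fun z => F (S.σ i z) + c γ from h1, F_smul hF]
  exact ((F_analyticAt hF i hz3).continuousAt.tendsto).add_const _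

/-- an adapted chart -/
structure Ch (S : Sheets (a + m) E K) (F : E → Fin a → ℂ) (t₀ : Cm a) where
  γ : K
  i : Fin S.N
  χ : Cm (a + m) → Cm (a + m)
  R : ℝ
  pos : 0 < R
  an : ∀ u ∈ ball (0 : Cm (a + m)) R, AnalyticAt ℂ χ u ∧ χ u ∈ ball (0 : Cm (a + m)) 3 ∧
    (jac χ u).det ≠ 0 ∧ F (γ • S.σ i (χ u)) = t₀ + p1 u
  inj : ∀ u ∈ ball (0 : Cm (a + m)) R, ∀ v ∈ ball (0 : Cm (a + m)) R, χ u = χ v → u = v

/-- the part of the quotient covered by an adapted chart -/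
def Ch.im {t₀ : Cm a} (C : Ch S F t₀) : Set (Qs K E) :=
  {x | ∃ u ∈ ball (0 : Cm (a + m)) (C.R / 3), pj K (C.γ • S.σ C.i (C.χ u)) = x}

theorem exists_ch (hF : ∀ j, Add S (fun e => F e j) (fun γ => c γ j)) {t₀ : Cm a} {e : E}
    (he : F e = t₀) (hreg : ∀ i, ∀ z ∈ ball (0 : Cm (a + m)) 3, ∀ γ : K,
      F (γ • S.σ i z) = t₀ → Function.Surjective (fderiv ℂ (fun z => F (S.σ i z)) z)) {δ : ℝ}
    (hδ : 0 < δ) : ∃ C : Ch S F t₀, C.R ≤ δ ∧ C.im ∈ 𝓝 (pj K e) := by
  obtain ⟨γ, i, z, hz, h⟩ := S.cover e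
  have hz3 : z ∈ ball (0 : Cm (a + m)) 3 := by
    rw [mem_ball_zero_iff]
    linarith
  have hG : (fun z => F (γ • S.σ i z)) = fun z => F (S.σ i z) + c γ :=
    funext fun z => F_smul hF γ _
  have h1 : AnalyticAt ℂ (fun z => F (γ • S.σ i z)) z := by
    rw [hG]
    exact (F_analyticAt hF i hz3).add analyticAt_const
  have h2 : Function.Surjective (fderiv ℂ (fun z => F (γ • S.σ i z)) z) := by
    rw [hG, fderiv_add_const]
    exact hreg i z hz3 γ (by rw [h, he])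
  obtain ⟨χ, R, hR, b1, b2, b3⟩ := exists_coord hz3 h1 h2
  have hsub : ball (0 : Cm (a + m)) (min R δ) ⊆ ball 0 R := ball_subset_ball (min_le_left _ _)
  have hpos : 0 < min R δ := lt_min hR hδ
  refine ⟨⟨γ, i, χ, min R δ, hpos, fun u hu => ?_, fun u hu v hv =>
    b3 u (hsub hu) v (hsub hv)⟩, min_le_right _ _, ?_⟩
  · obtain ⟨c1, c2, c3, c4⟩ := b2 u (hsub hu)
    refine ⟨c1, c2, c3, ?_⟩
    rw [c4, h, he]
  · have h0 : (0 : Cm (a + m)) ∈ ball (0 : Cm (a + m)) R := mem_ball_self hR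
    obtain ⟨c1, c2, c3, c4⟩ := b2 0 h0
    obtain ⟨g, d1, d2, -, d4⟩ := inv_hol c1 c3
    have e1 : Filter.map (fun e : E => γ • e) (𝓝 (S.σ i z)) = 𝓝 (γ • S.σ i z) :=
      (Homeomorph.smul γ).map_nhds_eq _
    have e2 : Filter.map χ (𝓝 0) = 𝓝 z := by
      rw [← b1]
      exact map_nhds_of_inv c1.continuousAt d1.continuousAt d2 d4
    have e3 : Filter.map (fun u => pj K (γ • S.σ i (χ u))) (𝓝 0) = 𝓝 (pj K e) := by
      rw [← h, ← map_pj, ← e1, ← S.map_nhds i z hz3, ← e2, Filter.map_map, Filter.map_map,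
        Filter.map_map]
      rfl
    rw [← e3]
    refine mem_of_superset (Filter.image_mem_map (ball_mem_nhds (0 : Cm (a + m))
      (by linarith : (0 : ℝ) < min R δ / 3))) ?_
    rintro _ ⟨u, hu, rfl⟩
    exact ⟨u, hu, rfl⟩

/-- **compactness**: finitely many adapted charts cover `‖F - t₀‖ < ε₁` -/
theorem exists_fin (hF : ∀ j, Add S (fun e => F e j) (fun γ => c γ j)) {t₀ : Cm a}
    (hreg : ∀ i, ∀ z ∈ ball (0 : Cm (a + m)) 3, ∀ γ : K,
      F (γ • S.σ i z) = t₀ → Function.Surjective (fderiv ℂ (fun z => F (S.σ i z)) z)) {δ : ℝ}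
    (hδ : 0 < δ) (hdisc : ∀ γ, ‖c γ‖ < δ → c γ = 0) {δ' : ℝ} (hδ' : 0 < δ') {e₀ : E}
    (he₀ : F e₀ = t₀) :
    ∃ (n : ℕ) (C : Fin n → Ch S F t₀) (ε₁ : ℝ), 0 < n ∧ 0 < ε₁ ∧ (∀ k, (C k).R ≤ δ') ∧
      ∀ e, ‖F e - t₀‖ < ε₁ → ∃ k, pj K e ∈ (C k).im := by
  have hcmp : CompactSpace (Qs K E) := compact_Qs S
  have hcm : ∀ γ γ' : K, c (γ * γ') = c γ + c γ' := by
    intro γ γ'
    have h1 := F_smul hF (γ * γ') e₀
    rw [mul_smul, F_smul hF, F_smul hF] at h1
    have h2 : F e₀ + (c γ' + c γ) = F e₀ + c (γ * γ') := by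
      rw [← h1]
      abel
    rw [← add_left_cancel h2, add_comm]
  have hc1 : c 1 = 0 := by
    have h1 := hcm 1 1
    rw [mul_one] at h1
    have h2 : c 1 + 0 = c 1 + c 1 := by rw [add_zero]; exact h1
    exact (add_left_cancel h2).symm
  have hci : ∀ γ : K, c γ⁻¹ = -c γ := by
    intro γ
    have h1 := hcm γ γ⁻¹
    rw [mul_inv_cancel, hc1] at h1
    exact (neg_eq_of_add_eq_zero_right h1.symm).symm
  set Cs : Set (Cm a) := range c with hCs
  have hCcl : IsClosed Cs := by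
    refine Metric.isClosed_of_pairwise_le_dist hδ ?_
    rintro _ ⟨γ, rfl⟩ _ ⟨γ', rfl⟩ hne
    by_contra hlt
    push Not at hlt
    have h1 : c (γ * γ'⁻¹) = 0 := by
      refine hdisc _ ?_
      rw [hcm, hci, ← sub_eq_add_neg, ← dist_eq_norm]
      exact hlt
    rw [hcm, hci, ← sub_eq_add_neg, sub_eq_zero] at h1
    exact hne h1
  have hCne : Cs.Nonempty := ⟨c 1, 1, rfl⟩
  -- the distance function on the quotient
  set f : E → ℝ := fun e => infDist (t₀ - F e) Cs with hf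
  have hfc : Continuous f := (continuous_infDist_pt Cs).comp (continuous_const.sub (F_cont hF))
  have hfinv : ∀ (γ : K) (e : E), f (γ • e) = f e := by
    have hle : ∀ (γ : K) (e : E), f (γ • e) ≤ f e := by
      intro γ e
      refine (le_infDist hCne).2 ?_
      rintro _ ⟨γ', rfl⟩
      have h1 : dist (t₀ - F e) (c γ') = dist (t₀ - F (γ • e)) (c (γ' * γ⁻¹)) := by
        rw [dist_eq_norm, dist_eq_norm, F_smul hF, hcm, hci]
        congr 1
        abel
      rw [h1]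
      exact infDist_le_dist_of_mem ⟨_, rfl⟩
    intro γ e
    refine le_antisymm (hle γ e) ?_
    have := hle γ⁻¹ (γ • e)
    rwa [inv_smul_smul] at this
  set φ : Qs K E → ℝ := Quotient.lift f (fun x y hxy => by
    obtain ⟨γ, hγ⟩ := pj_eq.1 (Quotient.sound hxy : pj K x = pj K y)
    rw [← hγ, hfinv]) with hφ
  have hφpj : ∀ e, φ (pj K e) = f e := fun _ => rfl
  have hφc : Continuous φ := isQuotientMap_pj.continuous_iff.2 hfc
  -- the zero set
  have hX : IsCompact {x : Qs K E | φ x = 0} :=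
    (isClosed_eq hφc continuous_const).isCompact
  have hzero : ∀ x : Qs K E, φ x = 0 → ∃ e, pj K e = x ∧ F e = t₀ := by
    intro x hx
    obtain ⟨e, rfl⟩ := pj_surj x
    have h1 : t₀ - F e ∈ Cs := (hCcl.mem_iff_infDist_zero hCne).2 hx
    obtain ⟨γ, hγ⟩ := h1
    refine ⟨γ • e, pj_smul γ e, ?_⟩
    rw [F_smul hF, hγ, add_sub_cancel]
  have hch : ∀ x : Qs K E, φ x = 0 → ∃ C : Ch S F t₀, C.R ≤ δ' ∧ C.im ∈ 𝓝 x := by
    intro x hx
    obtain ⟨e, rfl, he⟩ := hzero x hx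
    exact exists_ch hF he hreg hδ'
  choose C hCR hCn using hch
  obtain ⟨t, ht⟩ := hX.elim_nhds_subcover' (fun x hx => interior (C x hx).im)
    fun x hx => interior_mem_nhds.2 (hCn x hx)
  -- positivity off the union
  set U : Set (Qs K E) := ⋃ y ∈ t, interior ((C (y : Qs K E) y.2).im) with hUdef
  have hUo : IsOpen U := isOpen_biUnion fun _ _ => isOpen_interior
  have hpos : ∀ x, x ∉ U → 0 < φ x := by
    intro x hx
    obtain ⟨e, rfl⟩ := pj_surj x
    refine lt_of_le_of_ne infDist_nonneg fun h0 => hx (ht ?_)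
    exact h0.symm
  have hU : ∃ ε₁ : ℝ, 0 < ε₁ ∧ ∀ x : Qs K E, φ x < ε₁ → x ∈ U := by
    rcases (Uᶜ).eq_empty_or_nonempty with h0 | h0
    · refine ⟨1, one_pos, fun x _ => ?_⟩
      by_contra hx
      have : x ∈ Uᶜ := hx
      rw [h0] at this
      exact this
    · obtain ⟨x₀, hx₀, hmin⟩ := (hUo.isClosed_compl.isCompact).exists_isMinOn h0 hφc.continuousOn
      refine ⟨φ x₀, hpos x₀ hx₀, fun x hx => ?_⟩
      by_contra hxU
      exact absurd (hmin hxU) (not_le.2 hx)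
  obtain ⟨ε₁, hε₁, hU⟩ := hU
  have hφle : ∀ e, φ (pj K e) ≤ ‖F e - t₀‖ := by
    intro e
    have h1 : infDist (t₀ - F e) Cs ≤ dist (t₀ - F e) (c 1) := infDist_le_dist_of_mem ⟨1, rfl⟩
    rw [hc1, dist_zero_right, norm_sub_rev] at h1
    exact h1
  have hne : t.Nonempty := by
    have h1 : pj K e₀ ∈ U := by
      refine ht ?_
      have h2 := hφle e₀
      rw [he₀, sub_self, norm_zero] at h2
      exact le_antisymm h2 infDist_nonneg
    obtain ⟨y, hy, -⟩ := mem_iUnion₂.1 h1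
    exact ⟨y, hy⟩
  set g : t → Ch S F t₀ := fun y => C y.1.1 y.1.2 with hg
  refine ⟨t.card, fun k => g (t.equivFin.symm k), ε₁,
    Finset.card_pos.2 hne, hε₁, fun k => hCR _ _, fun e he => ?_⟩
  obtain ⟨y, hy, hyU⟩ := mem_iUnion₂.1 (hU (pj K e) (lt_of_le_of_lt (hφle e) he))
  refine ⟨t.equivFin ⟨y, hy⟩, ?_⟩
  have h3 : pj K e ∈ (g ⟨y, hy⟩).im := interior_subset hyU
  show pj K e ∈ (g (t.equivFin.symm (t.equivFin ⟨y, hy⟩))).im
  rw [Equiv.symm_apply_apply]
  exact h3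

end Vale.Agent.P281.H22.HKT
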