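import Vale.Agent.P281.H22.HKT.Tra
import Vale.Agent.P281.H511.HKT.Alg
import Vale.Agent.P281.H969.K.DegG
import Vale.Agent.P281.H603.TE.Core

/-!
# P281, project T-HKT (helper22), block BAD, 2: `BadTStmt`
-/

open Set Filter Metric Vale.Agent.P281 Vale.Agent.P281.H713 Vale.Agent.P272.K
open Vale.Agent.P281.H64.Thin (IsThinSet)
open Vale.Agent.P281.H64.Gen (IsSmallSet)
open scoped Topology ContDiff Manifold ComplexConjugate ComplexOrder

set_option linter.unusedSectionVars false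

noncomputable section

namespace Vale.Agent.P281.H22.HKT

open Vale.Agent.P281.H64 (Mark)
open Vale.Agent.P281.H64.TK Vale.Agent.P281.H64.TK.TS Vale.Agent.P281.H83.HK
open Vale.Agent.P281.H603.TE (sub fsub fW core Cmp res ccs kah_fW compareE kfam_sub idx coreS)
open Vale.Agent.P281.H399.QT (Qs One1 pj quo fquo kah_quo kfam_quo t2_quo)
open Vale.Agent.P281.H969.K (analyticAt_dd₂ small_of_local)
open Vale.Agent.P281.H511.HKT (analyticAt_dt)
open Vale.Agent.P281.H834.HKT Vale.Agent.P281.H834.HK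
open Vale.Agent.P281.H83.HKT

attribute [local instance] ccs

section fam
variable {p d a : ℕ} {E Γ : Type} [TopologicalSpace E] [T2Space E] [SimplyConnectedSpace E]
  [Group Γ] [MulAction Γ E] [ContinuousConstSMul Γ E]

/-- **the local equations of the bad set** -/
theorem loc_eq (hB : BasTStmt) (h2 : Fin2Stmt) (hH : HodgeConstStmt) (hFr : FrameStmt)
    (had : a + 2 ≤ d) (𝓕 : Fam p d E Γ) (K : Subgroup Γ) [K.FiniteIndex]
    {W : Fin 𝓕.N → Cm p × Cm d → Matrix (Fin p ⊕ Fin d) (Fin p ⊕ Fin d) ℂ} (hK : KFam 𝓕 W)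
    (Mk : Mark K (a + a)) {T' : Set (Cm p)} (hT' : T' ⊆ 𝓕.T) (hTo : IsOpen T')
    {F : Cm p → E → Fin a → ℂ} {c : Cm p → K → Fin a → ℂ}
    (hbas : ∀ (t : Cm p) (ht : t ∈ T'), IsBas (sub (𝓕.at t (hT' ht)) K) (F t) (c t))
    (hFa : ∀ i, ∀ t ∈ T', ∀ z ∈ ball (0 : Cm d) 3, ∀ j,
      AnalyticAt ℂ (fun q : Cm p × Cm d => F q.1 ((fsub 𝓕 K).σ i q.1 q.2) j) (t, z))
    {t₀ : Cm p} (ht₀ : t₀ ∈ T') :
    ∃ (ι : Type) (U : Set (Cm p)) (P : ι → Cm p → ℂ), U ⊆ T' ∧ IsOpen U ∧ t₀ ∈ U ∧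
      (∀ x, ∀ t ∈ U, AnalyticAt ℂ (P x) t) ∧ ∀ (t : Cm p) (ht : t ∈ 𝓕.T), t ∈ U →
        ((¬ ∃ s, GenU (quo (sub (𝓕.at t ht) K)) (dF (sub (𝓕.at t ht) K) (F t)) s) ↔
          ∀ x, P x t = 0) := by
  have hd : 0 < d := by omega
  have hd2 : 2 ≤ d := by omega
  have hlt : a < d := by omega
  have hG : KFam (fquo (fsub 𝓕 K)) (fun i => W (idx K 𝓕.N i).1) := kfam_quo (kfam_sub 𝓕 K hK)
  have hT2 : T2Space (Qs K E) := t2_quo (sub (𝓕.at t₀ (hT' ht₀)) K)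
  obtain ⟨h, b₀, hb₀⟩ := h2 d (Qs K E) One1 (quo (sub (𝓕.at t₀ (hT' ht₀)) K)) (fW K W t₀) hd2
    (kah_quo (kah_fW K hK (hT' ht₀)))
  have hH' : ∀ t (ht : t ∈ (fquo (fsub 𝓕 K)).T), ∃ b : Fin h → Fin (fquo (fsub 𝓕 K)).N → Cm d →
      Matrix (Fin d) (Fin d) ℂ, Bas2 ((fquo (fsub 𝓕 K)).at t ht) b := fun t ht =>
    hH p d h (Qs K E) One1 (fquo (fsub 𝓕 K)) _ hd2 hG t₀ (hT' ht₀) t ht ⟨b₀, hb₀⟩
  obtain ⟨T'', b, hs, ho, ht₀', hba, hbb⟩ := hFr p d h (Qs K E) One1 (fquo (fsub 𝓕 K)) hd hH' t₀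
    (hT' ht₀)
  by_cases hh : h = Module.finrank ℂ (ℂ × skw a)
  · refine ⟨{x : (Fin h → ℂ) × Fin (fsub 𝓕 K).N × Cm d // x.2.2 ∈ ball (0 : Cm d) 3},
      T' ∩ T'', fun x t => dt (Matrix.of fun j k =>
        dd k (fun z => F t ((fsub 𝓕 K).σ x.1.2.1 t z) j) x.1.2.2)
          (∑ k, x.1.1 k • b k x.1.2.1 (t, x.1.2.2)), inter_subset_left, hTo.inter ho,
      ⟨ht₀, ht₀'⟩, ?_, ?_⟩
    · rintro ⟨⟨c', i, z⟩, hz⟩ t ⟨ht, ht''⟩
      have h0 : AnalyticAt ℂ (fun t : Cm p => (t, z)) t := by fun_prop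
      refine analyticAt_dt (fun j k => ?_) (fun j k => ?_)
      · have h1 := analyticAt_dd₂ (G := fun q : Cm p × Cm d => F q.1 ((fsub 𝓕 K).σ i q.1 q.2) j)
          (hFa i t ht z hz j) k
        exact AnalyticAt.comp (f := fun t : Cm p => (t, z)) h1 h0
      · simp only [Matrix.sum_apply, Matrix.smul_apply, smul_eq_mul]
        refine Finset.analyticAt_fun_sum _ fun l _ => analyticAt_const.mul ?_
        exact AnalyticAt.comp (f := fun t : Cm p => (t, z)) (hba l i t ht'' z hz j k) h0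
    · rintro t ht ⟨ht1, ht2⟩
      have hbt : Bas2 (quo (sub (𝓕.at t ht) K)) (fun r i z => b r i (t, z)) := hbb t ht ht2
      obtain ⟨h3, h4, -⟩ := hB d a E K (sub (𝓕.at t ht) K) (fW K W t) Mk (F t) (c t) hd
        (kah_fW K hK ht) (hbas t ht1)
      constructor
      · rintro hno ⟨⟨c', i, z⟩, hz⟩
        by_contra hne
        exact hno ⟨_, genU_of hlt h3 h4 (hol2_sum Finset.univ (fun k _ => hbt.form k) c')
          ⟨i, z, hz, hne⟩ hbt hh⟩
      · rintro hall ⟨s, hs⟩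
        obtain ⟨c', hc'⟩ := hbt.span s hs.form
        obtain ⟨i, z, hz, hne⟩ := hs.ne
        refine hne ?_
        have h5 := hall ⟨⟨c', i, z⟩, hz⟩
        rw [hc' i z hz]
        exact h5
  · exact ⟨Unit, T' ∩ T'', fun _ _ => 0, inter_subset_left, hTo.inter ho, ⟨ht₀, ht₀'⟩,
      fun _ _ _ => analyticAt_const, fun t ht ⟨ht1, ht2⟩ => ⟨fun _ _ => rfl,
        fun _ ⟨s, hs⟩ => hh (genU_card hlt hs (hbb t ht ht2))⟩⟩

end fam

/-- **BAD** -/
theorem bad_of (hB : BasTStmt) (h2 : Fin2Stmt) (hH : HodgeConstStmt) (hFr : FrameStmt)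
    (I : Inputs) : BadTStmt := by
  intro p d a m Z Y _ _ _ _ _ _ _ _ _ f S w had hf hsurj hPf hS hpre hw hne
  have hd : 0 < d := by omega
  have hYc : CompactSpace Y := by
    rw [← isCompact_univ_iff, ← hsurj.range_eq]
    exact isCompact_range hf.continuous
  have hYs : SecondCountableTopology Y := ChartedSpace.secondCountable_of_sigmaCompact (Cm p) Y
  refine ⟨S ∪ {y | ¬ NDegU p d a m f y}, subset_union_left,
    small_of_local hS hpre (fun y₀ hy₀ => ?_) ?_, ?_⟩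
  · obtain ⟨E, Γ, _, _, _, _, _, _, 𝓕, q, M, hy₀T, hTS⟩ := I.ab p d Z Y f S hd hf hPf y₀ hy₀
    obtain ⟨W, hWp, hK⟩ := I.w p d Z Y f w E Γ 𝓕 q (chartAt (Cm p) y₀) hf M hw
    have hKi : (core Γ m).FiniteIndex := coreS d m E Γ (𝓕.at _ hy₀T) hd
    obtain ⟨n, ⟨Mk⟩⟩ := I.f1 d E (core Γ m)
      (sub (𝓕.at (chartAt (Cm p) y₀ y₀) hy₀T) (core Γ m)) hd
    obtain ⟨g, T', hT', F, c, hn, hTo, ht₀, hbas, hFa, hca⟩ :=
      I.d p d E (core Γ m) (fsub 𝓕 (core Γ m)) _ hd (kfam_sub 𝓕 (core Γ m) hK) n Mk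
        (chartAt (Cm p) y₀ y₀) hy₀T
    by_cases hga : g = a
    · subst hga
      obtain rfl : n = g + g := by omega
      obtain ⟨ι, U, P, hUT, hU, htU, hP, hPD⟩ := loc_eq hB h2 hH hFr had 𝓕 (core Γ m) hK Mk hT'
        hTo hbas hFa ht₀
      refine ⟨ι, (chartAt (Cm p) y₀).source ∩ chartAt (Cm p) y₀ ⁻¹' U,
        fun a y => P a (chartAt (Cm p) y₀ y),
        (chartAt (Cm p) y₀).continuousOn.isOpen_inter_preimage (chartAt (Cm p) y₀).open_source hU,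
        ⟨mem_chart_source (Cm p) y₀, htU⟩, ?_, ?_⟩
      · rintro a y ⟨hys, hy⟩
        have h1 : ContMDiffAt 𝓘(ℂ, Cm p) 𝓘(ℂ, Cm p) ω (chartAt (Cm p) y₀) y :=
          contMDiffAt_of_mem_maximalAtlas
            (IsManifold.subset_maximalAtlas (chart_mem_atlas _ _)) hys
        have h2 : ContMDiffAt 𝓘(ℂ, Cm p) 𝓘(ℂ, ℂ) ω (P a) (chartAt (Cm p) y₀ y) :=
          ContDiffAt.contMDiffAt (hP a _ hy).contDiffAt
        exact ContMDiffAt.comp y h2 h1
      · rintro y ⟨hys, hy⟩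
        have hyT : chartAt (Cm p) y₀ y ∈ 𝓕.T := hT' (hUT hy)
        have h1 : NDegU p d g m f y ↔
            ∃ s, GenU (quo (sub (𝓕.at _ hyT) (core Γ m)))
              (dF (sub (𝓕.at _ hyT) (core Γ m)) (F (chartAt (Cm p) y₀ y))) s := by
          constructor
          · intro h
            exact NDegU.all hB I hd hf hw h M hyT ((chartAt (Cm p) y₀).left_inv hys) hK Mk
              (hbas _ (hUT hy))
          · intro h
            exact ⟨E, Γ, inferInstance, inferInstance, inferInstance, inferInstance,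
              inferInstance, inferInstance, hKi, 𝓕, q, chartAt (Cm p) y₀, _, hyT, M,
              (chartAt (Cm p) y₀).left_inv hys, F _, c _, hbas _ (hUT hy), h⟩
        rw [mem_ofPred_eq, h1]
        exact hPD _ hyT hy
    · refine ⟨Unit, (chartAt (Cm p) y₀).source ∩ chartAt (Cm p) y₀ ⁻¹' T', fun _ _ => 0,
        (chartAt (Cm p) y₀).continuousOn.isOpen_inter_preimage (chartAt (Cm p) y₀).open_source hTo,
        ⟨mem_chart_source (Cm p) y₀, ht₀⟩, ?_, ?_⟩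
      · rintro a y -
        exact contMDiffAt_const
      · rintro y ⟨hys, hy⟩
        exact ⟨fun _ _ => rfl, fun _ h => hga (NDegU.card I hd hf hw h M (hT' hy)
          ((chartAt (Cm p) y₀).left_inv hys) (hbas _ hy))⟩
  · obtain ⟨y, hy, hn⟩ := hne
    exact ⟨y, hy, fun h => h hn⟩
  · intro y hy
    rw [mem_union, not_or] at hy
    exact not_not.1 hy.2

end Vale.Agent.P281.H22.HKT
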