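import Vale.Agent.P281.H22.HKT.Alg
import Vale.Agent.P281.H834.HKT.H20

/-!
# P281, project T-HKT (helper22): the dimension count for `GenU`
-/

open Set Filter Metric MeasureTheory
open scoped Topology ContDiff ComplexConjugate ComplexOrder

noncomputable section

namespace Vale.Agent.P281.H22.HKT

open Vale.Agent.P281.H64.TK Vale.Agent.P281.H64.TK.TS
open Vale.Agent.P281.H64 (Cm)
open Vale.Agent.P281.H83.HK (Hol2)
open Vale.Agent.P281.H83.HKT Vale.Agent.P281.H834.HK Vale.Agent.P281.H834.HKT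

variable {a d h : ℕ} {E Γ : Type} [TopologicalSpace E] [Group Γ] [MulAction Γ E] {S : Sheets d E Γ}

/-- The 2-forms on the sheets. -/
abbrev T2 (N d : ℕ) : Type := Fin N → ball (0 : Cm d) 3 → Matrix (Fin d) (Fin d) ℂ

/-- `c ↦ ∑ c_k b_k` -/
def bmap {N : ℕ} (b : Fin h → Fin N → Cm d → Matrix (Fin d) (Fin d) ℂ) :
    (Fin h → ℂ) →ₗ[ℂ] T2 N d where
  toFun c := fun i z => ∑ k, c k • b k i z
  map_add' c c' := by
    funext i z
    simp only [Pi.add_apply, add_smul, Finset.sum_add_distrib]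
  map_smul' r c := by
    funext i z
    simp only [Pi.smul_apply, RingHom.id_apply, smul_eq_mul, mul_smul, Finset.smul_sum]

/-- `(c, m) ↦ c s + ∑ m_jk u_j ∧ u_k` -/
def umap {N : ℕ} (u : Fin N → Cm d → Matrix (Fin a) (Fin d) ℂ)
    (s : Fin N → Cm d → Matrix (Fin d) (Fin d) ℂ) : (ℂ × skw a) →ₗ[ℂ] T2 N d where
  toFun x := fun i z => x.1 • s i z + uu (x.2 : Matrix (Fin a) (Fin a) ℂ) (u i z)
  map_add' x x' := by
    funext i z
    simp only [Prod.fst_add, Prod.snd_add, Submodule.coe_add, add_smul, uu_add, Pi.add_apply]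
    abel
  map_smul' r x := by
    funext i z
    simp only [Prod.smul_fst, Prod.smul_snd, Submodule.coe_smul, smul_eq_mul, mul_smul, uu_smul,
      Pi.smul_apply, RingHom.id_apply, smul_add]

theorem hol2_comb {u : Fin S.N → Cm d → Matrix (Fin a) (Fin d) ℂ}
    {s : Fin S.N → Cm d → Matrix (Fin d) (Fin d) ℂ} (hu : Hol1 S u) (hs : Hol2 S s) (c : ℂ)
    {m : Matrix (Fin a) (Fin a) ℂ} (hm : m.transpose = -m) :
    Hol2 S (fun i z => c • s i z + uu m (u i z)) := by
  have h1 := hol2_add_smul (hol2_uu hu hm) hs c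
  have h2 : (fun i z => uu m (u i z) + c • s i z) = fun i z => c • s i z + uu m (u i z) := by
    funext i z
    rw [add_comm]
  rwa [h2] at h1

theorem bmap_inj {b : Fin h → Fin S.N → Cm d → Matrix (Fin d) (Fin d) ℂ} (hb : Bas2 S b) :
    Function.Injective (bmap b) := by
  refine (injective_iff_map_eq_zero _).2 fun c hc => hb.indep c fun i z hz => ?_
  exact congrFun (congrFun hc i) ⟨z, hz⟩

theorem umap_inj (had : a < d) {u : Fin S.N → Cm d → Matrix (Fin a) (Fin d) ℂ}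
    {s : Fin S.N → Cm d → Matrix (Fin d) (Fin d) ℂ}
    (hne : ∃ i, ∃ z ∈ ball (0 : Cm d) 3, dt (u i z) (s i z) ≠ 0) :
    Function.Injective (umap u s) := by
  obtain ⟨i, z, hz, h0⟩ := hne
  refine (injective_iff_map_eq_zero _).2 fun x hx => ?_
  have h1 : x.1 • s i z + uu (x.2 : Matrix (Fin a) (Fin a) ℂ) (u i z) = 0 :=
    congrFun (congrFun hx i) ⟨z, hz⟩
  obtain ⟨h2, h3⟩ := comb_inj had h0 h1
  exact Prod.ext h2 (Subtype.ext h3)

theorem range_umap_le {b : Fin h → Fin S.N → Cm d → Matrix (Fin d) (Fin d) ℂ} (hb : Bas2 S b)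
    {u : Fin S.N → Cm d → Matrix (Fin a) (Fin d) ℂ}
    {s : Fin S.N → Cm d → Matrix (Fin d) (Fin d) ℂ} (hu : Hol1 S u) (hs : Hol2 S s) :
    LinearMap.range (umap u s) ≤ LinearMap.range (bmap b) := by
  rintro _ ⟨x, rfl⟩
  obtain ⟨c, hc⟩ := hb.span _ (hol2_comb hu hs x.1 x.2.2)
  exact ⟨c, by
    funext i z
    exact (hc i z z.2).symm⟩

theorem finrank_bmap {b : Fin h → Fin S.N → Cm d → Matrix (Fin d) (Fin d) ℂ} (hb : Bas2 S b) :
    Module.finrank ℂ (LinearMap.range (bmap b)) = h := by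
  rw [LinearMap.finrank_range_of_inj (bmap_inj hb), Module.finrank_fin_fun]

/-- **The dimension.** -/
theorem genU_card (had : a < d) {u : Fin S.N → Cm d → Matrix (Fin a) (Fin d) ℂ}
    {s : Fin S.N → Cm d → Matrix (Fin d) (Fin d) ℂ} (hG : GenU S u s)
    {b : Fin h → Fin S.N → Cm d → Matrix (Fin d) (Fin d) ℂ} (hb : Bas2 S b) :
    h = Module.finrank ℂ (ℂ × skw a) := by
  have h1 : LinearMap.range (bmap b) = LinearMap.range (umap u s) := by
    refine le_antisymm ?_ (range_umap_le hb hG.one hG.form)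
    rintro _ ⟨c, rfl⟩
    obtain ⟨c', m, hm, h2⟩ := hG.span2 _ (hol2_sum Finset.univ (fun k _ => hb.form k) c)
    exact ⟨(c', ⟨m, hm⟩), by
      funext i z
      exact (h2 i z z.2).symm⟩
  rw [← LinearMap.finrank_range_of_inj (umap_inj had hG.ne), ← h1, finrank_bmap hb]

/-- **The converse.** -/
theorem genU_of (had : a < d) {u : Fin S.N → Cm d → Matrix (Fin a) (Fin d) ℂ}
    {s : Fin S.N → Cm d → Matrix (Fin d) (Fin d) ℂ} (hu : Hol1 S u)
    (hspan : ∀ v : Fin S.N → Cm d → Matrix (Fin 1) (Fin d) ℂ, Hol1 S v →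
      ∃ c : Matrix (Fin 1) (Fin a) ℂ, ∀ i, ∀ z ∈ ball (0 : Cm d) 3, v i z = c * u i z)
    (hs : Hol2 S s) (hne : ∃ i, ∃ z ∈ ball (0 : Cm d) 3, dt (u i z) (s i z) ≠ 0)
    {b : Fin h → Fin S.N → Cm d → Matrix (Fin d) (Fin d) ℂ} (hb : Bas2 S b)
    (hh : h = Module.finrank ℂ (ℂ × skw a)) : GenU S u s := by
  refine ⟨hu, hs, hne, hspan, fun s' hs' => ?_⟩
  have hfin : FiniteDimensional ℂ (LinearMap.range (bmap b)) := inferInstance
  have h1 : LinearMap.range (umap u s) = LinearMap.range (bmap b) := by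
    refine Submodule.eq_of_le_of_finrank_eq (range_umap_le hb hu hs) ?_
    rw [LinearMap.finrank_range_of_inj (umap_inj had hne), finrank_bmap hb, hh]
  obtain ⟨c, hc⟩ := hb.span s' hs'
  have h2 : bmap b c ∈ LinearMap.range (umap u s) := by
    rw [h1]
    exact ⟨c, rfl⟩
  obtain ⟨x, hx⟩ := h2
  refine ⟨x.1, x.2, x.2.2, fun i z hz => ?_⟩
  rw [hc i z hz]
  exact (congrFun (congrFun hx i) ⟨z, hz⟩).symm

end Vale.Agent.P281.H22.HKT
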