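import Vale.Agent.P281.H22.HKT.Cnt
import Vale.Agent.P281.H511.HKT.Alg
import Vale.Agent.P281.H83.HKT.Spec

/-!
# P281, project T-HKT (helper22): `GenFamStmt`
-/

open Set Filter Metric Vale.Agent.P281 Vale.Agent.P281.H713 Vale.Agent.P272.K
open scoped Topology ContDiff Manifold ComplexConjugate ComplexOrder

set_option linter.unusedSectionVars false

noncomputable section

namespace Vale.Agent.P281.H22.HKT

open Vale.Agent.P281.H64.TK Vale.Agent.P281.H64.TK.TS Vale.Agent.P281.H83.HK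
open Vale.Agent.P281.H511.HKT (analyticAt_dt)
open Vale.Agent.P281.H834.HKT Vale.Agent.P281.H834.HK
open Vale.Agent.P281.H83.HKT

/-- **GENFAM** -/
theorem genFam_of (h2 : Fin2Stmt) (hH : HodgeConstStmt) (hFr : FrameStmt) : GenFamStmt := by
  intro p d a E Γ _ _ _ _ _ _ _ 𝓕 W T₀ u t₀ ht₀ had hK hT₀ hTo ht₀' hua hu hs₀
  have hd : 0 < d := by omega
  have hd2 : 2 ≤ d := by omega
  have hlt : a < d := by omega
  obtain ⟨s₀, hs₀⟩ := hs₀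
  obtain ⟨h, b₀, hb₀⟩ := h2 d E Γ (𝓕.at t₀ ht₀) (fibW W t₀) hd2 (H603.K.kah_fib hK ht₀)
  have hH' : ∀ t (ht : t ∈ 𝓕.T), ∃ b : Fin h → Fin 𝓕.N → Cm d → Matrix (Fin d) (Fin d) ℂ,
      Bas2 (𝓕.at t ht) b := fun t ht => hH p d h E Γ 𝓕 W hd2 hK t₀ ht₀ t ht ⟨b₀, hb₀⟩
  obtain ⟨T'', b, hs, ho, ht₀'', hba, hbb⟩ := hFr p d h E Γ 𝓕 hd hH' t₀ ht₀
  have hh := genU_card hlt hs₀ hb₀
  obtain ⟨c, hc⟩ := (hbb t₀ ht₀ ht₀'').span s₀ hs₀.form
  obtain ⟨i, z, hz, hne⟩ := hs₀.ne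
  set s : Fin 𝓕.N → Cm p × Cm d → Matrix (Fin d) (Fin d) ℂ := fun i q => ∑ k, c k • b k i q
    with hsdef
  have hsa : ∀ i, ∀ t ∈ T'', ∀ z ∈ ball (0 : Cm d) 3, ∀ j k,
      AnalyticAt ℂ (fun q => s i q j k) (t, z) := by
    intro i t ht z hz j k
    simp only [hsdef, Matrix.sum_apply, Matrix.smul_apply, smul_eq_mul]
    exact Finset.analyticAt_fun_sum _ fun l _ => analyticAt_const.mul (hba l i t ht z hz j k)
  have h0 : AnalyticAt ℂ (fun t : Cm p => (t, z)) t₀ := by fun_prop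
  have h1 : AnalyticAt ℂ (fun t => dt (u i (t, z)) (s i (t, z))) t₀ := by
    have h3 : AnalyticAt ℂ (fun q : Cm p × Cm d => dt (u i q) (s i q)) (t₀, z) :=
      analyticAt_dt (fun j k => hua i t₀ ht₀' z hz j k) (fun j k => hsa i t₀ ht₀'' z hz j k)
    exact AnalyticAt.comp (f := fun t : Cm p => (t, z)) h3 h0
  have h3 : dt (u i (t₀, z)) (s i (t₀, z)) ≠ 0 := by
    rw [hc i z hz] at hne
    exact hne
  have h4 : ∀ᶠ t in 𝓝 t₀, dt (u i (t, z)) (s i (t, z)) ≠ 0 := h1.continuousAt.eventually_ne h3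
  obtain ⟨V, hV, hVo, hVt⟩ := _root_.eventually_nhds_iff.1 h4
  refine ⟨T₀ ∩ T'' ∩ V, s, fun t ht => ht.1.1, (hTo.inter ho).inter hVo, ⟨⟨ht₀', ht₀''⟩, hVt⟩,
    fun i t ht => hua i t ht.1.1, fun i t ht => hsa i t ht.1.2, fun t ht ht' => ?_⟩
  obtain ⟨h5, h6⟩ := hu t ht ht'.1.1
  exact genU_of hlt h5 h6 (hol2_sum Finset.univ (fun k _ => (hbb t ht ht'.1.2).form k) c)
    ⟨i, z, hz, hV t ht'.2⟩ (hbb t ht ht'.1.2) hh

end Vale.Agent.P281.H22.HKT
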