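import Vale.Agent.P281.H702.HKT.SecC

/-!
# P281, project RADC, class C geometry (helper22): `u_1 ∧ ⋯ ∧ u_a ∧ s^n` is not identically zero
-/

open Set Filter Metric Vale.Agent.P281 Vale.Agent.P272.K
open scoped Topology ContDiff Manifold

noncomputable section

set_option maxSynthPendingDepth 3
set_option linter.unusedSectionVars false

namespace Vale.Agent.P281.H22.HKT

open Vale.Agent.P281.H64.TK (Sheets)
open Vale.Agent.P281.H83.HK (IsHol2)
open Vale.Agent.P281.H83.HKT (dt)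
open Vale.Agent.P281.H191.RC (PsiT)
open Vale.Agent.P281.H702.HK (mf)
open Vale.Agent.P281.H702.HKT

section alg
variable {d a h : ℕ}

/-- the linear algebra of `ne` -/
theorem dt_ne (hd : d = a + h) {κ' : Cm d →L[ℂ] Cm a × Cm h} (hinj : Function.Injective κ')
    {u : Matrix (Fin a) (Fin d) ℂ} {s : Matrix (Fin d) (Fin d) ℂ} {m : Matrix (Fin h) (Fin h) ℂ}
    (hm : m.det ≠ 0) (hu : ∀ U, u.mulVec U = (κ' U).1)
    (hs : ∀ U W, mf s U W = mf m (κ' U).2 (κ' W).2) : dt u s ≠ 0 := by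
  have hfr : Module.finrank ℂ (Cm d) = Module.finrank ℂ (Cm a × Cm h) := by
    simp [hd]
  have hsur : Function.Surjective κ' :=
    (LinearMap.injective_iff_surjective_of_finrank_eq_finrank
      (f := (κ' : Cm d →ₗ[ℂ] Cm a × Cm h)) hfr).1 hinj
  intro h0
  obtain ⟨x, hx0, hx⟩ := Matrix.exists_mulVec_eq_zero_iff.2 h0
  set p : Cm d := fun k => x (Sum.inl k) with hp
  set y : Cm a := fun k => x (Sum.inr k) with hy
  have hxe : x = Sum.elim p y := by
    funext k
    cases k <;> rfl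
  rw [hxe, Matrix.fromBlocks_mulVec] at hx
  have e1 : s.mulVec p + u.transpose.mulVec y = 0 := by
    funext k
    exact congrFun hx (Sum.inl k)
  have e2 : u.mulVec p = 0 := by
    funext k
    have := congrFun hx (Sum.inr k)
    simpa [Matrix.neg_mulVec] using this
  rw [hu] at e2
  have e3 : ∀ U, mf m (κ' U).2 (κ' p).2 + (κ' U).1 ⬝ᵥ y = 0 := by
    intro U
    have h6 := congrArg (fun t => U ⬝ᵥ t) e1
    simp only [dotProduct_add, dotProduct_zero] at h6
    rw [← mf_dot, hs, Matrix.dotProduct_mulVec, Matrix.vecMul_transpose, hu] at h6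
    exact h6
  have e4 : (κ' p).2 = 0 := by
    have h7 : m.mulVec (κ' p).2 = 0 := by
      funext k
      obtain ⟨U, hU⟩ := hsur ((0 : Cm a), (Pi.single k (1 : ℂ) : Cm h))
      have h8 := e3 U
      rw [hU, mf_dot] at h8
      simpa using h8
    by_contra h8
    exact hm (Matrix.exists_mulVec_eq_zero_iff.1 ⟨_, h8, h7⟩)
  have e5 : p = 0 := by
    apply hinj
    rw [map_zero]
    exact Prod.ext (x := κ' p) (y := 0) e2 e4
  have e6 : y = 0 := by
    funext k
    obtain ⟨U, hU⟩ := hsur ((Pi.single k (1 : ℂ) : Cm a), (0 : Cm h))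
    have h8 := e3 U
    rw [hU, map_zero, zero_apply, zero_add] at h8
    simpa using h8
  apply hx0
  rw [hxe, e5, e6]
  funext k
  cases k <;> rfl

end alg

section pt
variable {d a h : ℕ} {E K H : Type} [TopologicalSpace E] [Group K] [MulAction K E]
  [TopologicalSpace H] [ChartedSpace (Cm h) H] [IsManifold 𝓘(ℂ, Cm h) ω H] {S : Sheets d E K}
  {ψ : E → Cm a × H} {l : K → Cm a} {A : Set (Cm a × H)}

/-- a point of a sheet off `A`, where the form of `H` is nondegenerate -/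
theorem ne_pt (hP : PsiT (h := h) S ψ l A) {sg : Chart h H → Cm h → Matrix (Fin h) (Fin h) ℂ}
    (hs : IsHol2 sg) (hne : ∃ e ∈ atlas (Cm h) H, ∃ w ∈ e.target, (sg e w).det ≠ 0) :
    ∃ j, ∃ z ∈ ball (0 : Cm d) 3, ∃ e ∈ atlas (Cm h) H, (ψ (S.σ j z)).2 ∈ e.source ∧
      ψ (S.σ j z) ∉ A ∧ (sg e (e (ψ (S.σ j z)).2)).det ≠ 0 := by
  obtain ⟨e, he, w, hw, hdet⟩ := hne
  have hr : ((0 : Cm a), w) ∈ Dom a e := hw
  have h1 : ContinuousAt (fun w => (sg e w).det) w := by
    have h2 : ContinuousAt (sg e) w := by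
      refine continuousAt_pi.2 fun j => continuousAt_pi.2 fun k => ?_
      exact ((hs.hol e he j k).continuousOn).continuousAt (e.open_target.mem_nhds hw)
    exact (Continuous.matrix_det continuous_id).continuousAt.comp h2
  have h2 : ∀ᶠ w' in 𝓝 w, (sg e w').det ≠ 0 ∧ w' ∈ e.target :=
    (h1.eventually_ne hdet).and (e.open_target.mem_nhds hw)
  have h3 : ∀ᶠ r : Cm a × Cm h in 𝓝 ((0 : Cm a), w), (sg e r.2).det ≠ 0 ∧ r.2 ∈ e.target :=
    (continuous_snd.tendsto ((0 : Cm a), w)).eventually h2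
  have h4 := dns hP.small he hr
  obtain ⟨r, hr1, hr2⟩ := h4.nonempty_of_mem
    (inter_mem (mem_nhdsWithin_of_mem_nhds h3) self_mem_nhdsWithin)
  obtain ⟨x, hx⟩ := hP.surj (r.1, e.symm r.2)
  obtain ⟨γ, j, z, hz, hσ⟩ := S.cover x
  have hz' : z ∈ ball (0 : Cm d) 3 := by
    rw [mem_ball_zero_iff]
    linarith
  have h5 : ((ψ (S.σ j z)).1 + l γ, (ψ (S.σ j z)).2) = (r.1, e.symm r.2) := by
    rw [← hP.eqv, hσ, hx]
  have h6 : (ψ (S.σ j z)).2 = e.symm r.2 := congrArg Prod.snd h5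
  refine ⟨j, z, hz', e, he, ?_, ?_, ?_⟩
  · rw [h6]
    exact e.map_target hr1.2
  · intro h7
    apply hr2
    show (r.1, e.symm r.2) ∈ A
    rw [← h5]
    exact (hP.inv γ _).2 h7
  · rw [h6, e.right_inv hr1.2]
    exact hr1.1

end pt

end Vale.Agent.P281.H22.HKT
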