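import Vale.Agent.P281.H399.QT.Quo
import Vale.Agent.P281.H842.HKT.Prod
import Vale.Agent.P281.H864.K.Compat

/-!
# P281, project T-HKT (helper22), R3: new sheets `γ • σ (ψ z)` of a compact manifold
-/

open Set Filter Metric
open scoped Topology ContDiff ComplexConjugate

set_option linter.unusedSectionVars false

noncomputable section

namespace Vale.Agent.P281.H22.HKT

open Vale.Agent.P281.H64 (Cm)
open Vale.Agent.P281.H64.TK Vale.Agent.P281.H864.K
open Vale.Agent.P281.H399.QT (Qs One1 pj quo pj_eq pj_smul pj_surj continuous_pj t2_quo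
  isQuotientMap_pj map_pj)

section loc
variable {d : ℕ}

theorem det_ne_of_inj {f : Cm d → Cm d} {z : Cm d} (h : Function.Injective (fderiv ℂ f z)) :
    (jac f z).det ≠ 0 := by
  have h1 : (jac f z).det = LinearMap.det (fderiv ℂ f z : Cm d →ₗ[ℂ] Cm d) := by
    rw [← LinearMap.det_toMatrix']
    rfl
  rw [h1]
  have h2 : Function.Injective (fderiv ℂ f z : Cm d →ₗ[ℂ] Cm d) := h
  exact (LinearEquiv.isUnit_det' (LinearEquiv.ofInjectiveEndo _ h2)).ne_zero

theorem map_nhds_of_inv {f g : Cm d → Cm d} {z : Cm d} (hf : ContinuousAt f z)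
    (hg : ContinuousAt g (f z)) (hgz : g (f z) = z) (h : ∀ᶠ u in 𝓝 (f z), f (g u) = u) :
    Filter.map f (𝓝 z) = 𝓝 (f z) := by
  refine le_antisymm hf ?_
  intro s hs
  have h1 : Tendsto g (𝓝 (f z)) (𝓝 z) := by
    have := hg.tendsto
    rwa [hgz] at this
  filter_upwards [h1 hs, h] with u hu h2
  have h3 : f (g u) ∈ s := hu
  rwa [h2] at h3

end loc

section new
variable {d : ℕ} {E K : Type} [TopologicalSpace E] [Group K] [MulAction K E]
  [ContinuousConstSMul K E]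

/-- Data for the new sheets `γ_k • σ_(i_k) (ψ_k z)`. -/
structure Dat (S : Sheets d E K) (n : ℕ) where
  γ : Fin n → K
  i : Fin n → Fin S.N
  ψ : Fin n → Cm d → Cm d
  an : ∀ k, ∀ z ∈ ball (0 : Cm d) 3, AnalyticAt ℂ (ψ k) z
  maps : ∀ k, ∀ z ∈ ball (0 : Cm d) 3, ψ k z ∈ ball (0 : Cm d) 3
  inj : ∀ k, ∀ z ∈ ball (0 : Cm d) 3, ∀ w ∈ ball (0 : Cm d) 3, ψ k z = ψ k w → z = w
  det : ∀ k, ∀ z ∈ ball (0 : Cm d) 3, (jac (ψ k) z).det ≠ 0
  cover : ∀ e : E, ∃ (γ' : K) (k : Fin n) (z : Cm d), ‖z‖ < 1 ∧ γ' • γ k • S.σ (i k) (ψ k z) = e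

variable {S : Sheets d E K} {n : ℕ}

theorem Dat.exists_inv (D : Dat S n) (k : Fin n) {z : Cm d} (hz : z ∈ ball (0 : Cm d) 3) :
    ∃ χ : Cm d → Cm d, AnalyticAt ℂ χ (D.ψ k z) ∧ χ (D.ψ k z) = z ∧
      (jac χ (D.ψ k z)).det ≠ 0 ∧ ∀ᶠ u in 𝓝 (D.ψ k z), D.ψ k (χ u) = u :=
  inv_hol (D.an k z hz) (D.det k z hz)

theorem Dat.map_nhds (D : Dat S n) (k : Fin n) {z : Cm d} (hz : z ∈ ball (0 : Cm d) 3) :
    Filter.map (fun z => D.γ k • S.σ (D.i k) (D.ψ k z)) (𝓝 z) =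
      𝓝 (D.γ k • S.σ (D.i k) (D.ψ k z)) := by
  obtain ⟨χ, h1, h2, -, h4⟩ := D.exists_inv k hz
  have e1 : Filter.map (fun e : E => D.γ k • e) (𝓝 (S.σ (D.i k) (D.ψ k z))) =
      𝓝 (D.γ k • S.σ (D.i k) (D.ψ k z)) := (Homeomorph.smul (D.γ k)).map_nhds_eq _
  rw [← e1, ← S.map_nhds _ _ (D.maps k z hz), ← map_nhds_of_inv (D.an k z hz).continuousAt
    h1.continuousAt h2 h4, Filter.map_map, Filter.map_map]
  rfl

theorem Dat.continuousOn (D : Dat S n) (k : Fin n) :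
    ContinuousOn (fun z => D.γ k • S.σ (D.i k) (D.ψ k z)) (ball (0 : Cm d) 3) := fun _ hz =>
  ContinuousAt.continuousWithinAt (D.map_nhds k hz).le

/-- the new sheets -/
def newS (D : Dat S n) : Sheets d E K where
  N := n
  σ k z := D.γ k • S.σ (D.i k) (D.ψ k z)
  map_nhds k z hz := D.map_nhds k hz
  inj k z hz w hw δ h := by
    have h1 : ((D.γ k)⁻¹ * δ * D.γ k) • S.σ (D.i k) (D.ψ k z) = S.σ (D.i k) (D.ψ k w) := by
      rw [mul_smul, mul_smul, h, inv_smul_smul]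
    obtain ⟨h2, h3⟩ := S.inj _ _ (D.maps k z hz) _ (D.maps k w hw) _ h1
    refine ⟨?_, D.inj k z hz w hw h3⟩
    have h4 : δ = D.γ k * ((D.γ k)⁻¹ * δ * D.γ k) * (D.γ k)⁻¹ := by group
    rw [h4, h2]
    group
  cover e := D.cover e
  closed k r hr := by
    have hT2 : T2Space (Qs K E) := t2_quo S
    have h1 : IsCompact ((fun z => pj K (D.γ k • S.σ (D.i k) (D.ψ k z))) ''
        closedBall (0 : Cm d) r) := by
      refine (isCompact_closedBall _ _).image_of_continuousOn ?_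
      exact continuous_pj.comp_continuousOn
        ((D.continuousOn k).mono (closedBall_subset_ball hr))
    have h2 := h1.isClosed.preimage (continuous_pj (Γ := K) (E := E))
    convert h2 using 1
    ext e
    constructor
    · rintro ⟨δ, z, hz, rfl⟩
      exact ⟨z, mem_closedBall_zero_iff.2 hz, (pj_smul _ _).symm⟩
    · rintro ⟨z, hz, he⟩
      obtain ⟨δ, hδ⟩ := pj_eq.1 he.symm
      exact ⟨δ, z, mem_closedBall_zero_iff.1 hz, hδ⟩
  hol k l z hz w hw δ h := by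
    have h1 : S.σ (D.i k) (D.ψ k z) = ((D.γ k)⁻¹ * δ * D.γ l) • S.σ (D.i l) (D.ψ l w) := by
      rw [mul_smul, mul_smul, ← h, inv_smul_smul]
    obtain ⟨θ, a1, a2, a3⟩ := S.hol _ _ _ (D.maps k z hz) _ (D.maps l w hw) _ h1
    obtain ⟨χ, b1, b2, -, b4⟩ := D.exists_inv l hw
    have c1 : AnalyticAt ℂ (fun u => θ (D.ψ k u)) z := a1.comp (D.an k z hz)
    refine ⟨fun u => χ (θ (D.ψ k u)), ?_, ?_, ?_⟩
    · refine AnalyticAt.comp (f := fun u => θ (D.ψ k u)) ?_ c1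
      rw [a2]
      exact b1
    · show χ (θ (D.ψ k z)) = w
      rw [a2, b2]
    · have t1 : Tendsto (D.ψ k) (𝓝 z) (𝓝 (D.ψ k z)) := (D.an k z hz).continuousAt
      have t2 : Tendsto (fun u => θ (D.ψ k u)) (𝓝 z) (𝓝 (D.ψ l w)) := by
        have := c1.continuousAt.tendsto
        rwa [a2] at this
      filter_upwards [t1.eventually a3, t2.eventually b4] with u hu hu'
      rw [hu', hu, mul_smul, mul_smul, smul_inv_smul]

/-- the same complex structure -/
theorem holCompat_newS (D : Dat S n) : HolCompat S (newS D) := by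
  intro i l z hz w hw δ h
  have h1 : S.σ i z = (δ * D.γ l) • S.σ (D.i l) (D.ψ l w) := by
    rw [mul_smul]
    exact h
  obtain ⟨θ, a1, a2, a3, a4⟩ := holCompat_refl S i (D.i l) z hz _ (D.maps l w hw) _ h1
  obtain ⟨χ, b1, b2, b3, b4⟩ := D.exists_inv l hw
  have b1' : AnalyticAt ℂ χ (θ z) := by
    rw [a2]
    exact b1
  refine ⟨fun u => χ (θ u), AnalyticAt.comp b1' a1, ?_, ?_, ?_⟩
  · show χ (θ z) = w
    rw [a2, b2]
  · rw [jac_comp a2 b1.differentiableAt a1.differentiableAt, Matrix.det_mul]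
    exact mul_ne_zero b3 a3
  · have t1 : Tendsto θ (𝓝 z) (𝓝 (D.ψ l w)) := by
      have := a1.continuousAt.tendsto
      rwa [a2] at this
    filter_upwards [a4, t1.eventually b4] with u hu hu'
    show S.σ i u = δ • D.γ l • S.σ (D.i l) (D.ψ l (χ (θ u)))
    rw [hu', hu, mul_smul]

end new

end Vale.Agent.P281.H22.HKT
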