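import Vale.Agent.P281.H22.HKT.Sm2
import Vale.Agent.P281.H615.NC.Psi

/-!
# P281, project RADC, class C geometry (helper22): `PsiT` from `Psi` (for `F = ℂ^a × H`)
-/

open Set Filter Metric Vale.Agent.P281 Vale.Agent.P272.K
open scoped Topology ContDiff Manifold

set_option linter.unusedSectionVars false

noncomputable section

namespace Vale.Agent.P281.H22.HKT

open Vale.Agent.P281.H64.TK
open Vale.Agent.P281.H64.Gen (IsSmall2)
open Vale.Agent.P281.H842.HKT (p1 p2 ap pe pe_apply pe_symm p1_ap p2_ap ap_p)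
open Vale.Agent.P281.H191.RC (PsiT Sml2)

variable {a h : ℕ} {E K H : Type} [TopologicalSpace E] [Group K] [MulAction K E]
  [TopologicalSpace H] [ChartedSpace (Cm h) H]

/-- the map `v ↦ (v.1, e v.2)` in the chart of the product -/
theorem prod_eq_pe {e : OpenPartialHomeomorph H (Cm h)}
    {c : OpenPartialHomeomorph (Cm a × H) (Cm (a + h))}
    (hcv : ∀ v : Cm a × H, c v = ap v.1 (e v.2)) (ψ : E → Cm a × H) {T : Type} (σ : T → E) :
    (fun v => ((ψ (σ v)).1, e (ψ (σ v)).2)) = pe a h ∘ fun v => c (ψ (σ v)) := by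
  funext v
  show _ = pe a h (c (ψ (σ v)))
  rw [hcv, pe_apply, p1_ap, p2_ap]

theorem psiT_psi [ChartedSpace (Cm (a + h)) (Cm a × H)]
    [IsManifold 𝓘(ℂ, Cm (a + h)) ω (Cm a × H)] {S : Sheets (a + h) E K} {ψ : E → Cm a × H}
    {l : K → Cm a} {A : Set (Cm a × H)}
    (hch : ∀ e ∈ atlas (Cm h) H, ∃ c ∈ atlas (Cm (a + h)) (Cm a × H),
      (∀ v : Cm a × H, v.2 ∈ e.source → v ∈ c.source) ∧ (∀ v : Cm a × H, c v = ap v.1 (e v.2)) ∧
      ∀ w : Cm (a + h), c.symm w = (p1 w, e.symm (p2 w)))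
    (hψ : H615.NC.Psi S ψ A) (act : ∀ (k : K) e, ψ (k • e) = ((ψ e).1 + l k, (ψ e).2))
    (inv : ∀ (k : K) (v : Cm a × H), (v.1 + l k, v.2) ∈ A ↔ v ∈ A) : PsiT (h := h) S ψ l A where
  cont := hψ.cont
  surj := hψ.surj
  eqv := act
  inv := inv
  inj := hψ.inj
  hol j z hz e he hs := by
    obtain ⟨c, hcA, hcs, hcv, -⟩ := hch e he
    rw [prod_eq_pe hcv ψ (S.σ j)]
    exact AnalyticAt.comp ((pe a h : Cm (a + h) →L[ℂ] Cm a × Cm h).analyticAt _)
      (hψ.hol j z hz c hcA (hcs _ hs))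
  nd j z hz e he hs hA := by
    obtain ⟨c, hcA, hcs, hcv, -⟩ := hch e he
    have h1 := hψ.hol j z hz c hcA (hcs _ hs)
    have h2 := hψ.nd j z hz c hcA (hcs _ hs) hA
    have h5 : HasFDerivAt (⇑(pe a h) ∘ fun v => c (ψ (S.σ j v)))
        ((pe a h : Cm (a + h) →L[ℂ] Cm a × Cm h).comp
          (fderiv ℂ (fun u => c (ψ (S.σ j u))) z)) z :=
      HasFDerivAt.comp z ((pe a h).hasFDerivAt (x := (fun v => c (ψ (S.σ j v))) z))
        h1.differentiableAt.hasFDerivAt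
    rw [prod_eq_pe hcv ψ (S.σ j), h5.fderiv]
    have h4 : H64.TK.jac (fun u => c (ψ (S.σ j u))) z =
      LinearMap.toMatrix' (fderiv ℂ (fun u => c (ψ (S.σ j u))) z :
        Cm (a + h) →ₗ[ℂ] Cm (a + h)) := rfl
    rw [h4, LinearMap.det_toMatrix'] at h2
    have h6 : Function.Injective (fderiv ℂ (fun u => c (ψ (S.σ j u))) z) :=
      (LinearMap.equivOfDetNeZero (fderiv ℂ (fun u => c (ψ (S.σ j u))) z :
        Cm (a + h) →ₗ[ℂ] Cm (a + h)) h2).injective
    intro v w hvw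
    exact h6 ((pe a h).injective hvw)
  small := sml2_of hch hψ.small
  dense := hψ.dense

end Vale.Agent.P281.H22.HKT
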