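import Vale.Agent.P281.H64.Gen.SpecN
import Vale.Agent.P281.H842.HKT.Prod
import Vale.Agent.P281.H191.RC.PsiT

/-!
# P281, project RADC, class C geometry (helper22): small sets of codimension two in the charts of
`ℂ^a × H`
-/

open Set Filter Metric Vale.Agent.P281 Vale.Agent.P272.K
open scoped Topology ContDiff Manifold

noncomputable section

namespace Vale.Agent.P281.H22.HKT

open Vale.Agent.P281.H64.TK
open Vale.Agent.P281.H64.Gen (IsSmall2)
open Vale.Agent.P281.H842.HKT (p1 p2 ap pe pe_apply pe_symm p1_ap p2_ap ap_p)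

section gen
variable {n : ℕ} {X : Type} [TopologicalSpace X] [ChartedSpace (Cm n) X]
  [IsManifold 𝓘(ℂ, Cm n) ω X]

theorem sm_chart_md {c : OpenPartialHomeomorph X (Cm n)} (hc : c ∈ atlas (Cm n) X) {x : X}
    (hx : x ∈ c.source) : ContMDiffAt 𝓘(ℂ, Cm n) 𝓘(ℂ, Cm n) ω c x :=
  contMDiffAt_of_mem_maximalAtlas (IsManifold.subset_maximalAtlas hc) hx

theorem sm_symm_md {c : OpenPartialHomeomorph X (Cm n)} (hc : c ∈ atlas (Cm n) X) {v : Cm n}
    (hv : v ∈ c.target) : ContMDiffAt 𝓘(ℂ, Cm n) 𝓘(ℂ, Cm n) ω c.symm v :=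
  contMDiffAt_symm_of_mem_maximalAtlas (IsManifold.subset_maximalAtlas hc) hv

/-- a holomorphic function is analytic in a chart -/
theorem an_chart {c : OpenPartialHomeomorph X (Cm n)} (hc : c ∈ atlas (Cm n) X) {x : X}
    (hx : x ∈ c.source) {g : X → ℂ} (hg : J.HolAt (Cm n) g x) :
    AnalyticAt ℂ (fun v => g (c.symm v)) (c x) := by
  have h1 := sm_symm_md hc (c.map_source hx)
  have h2 : ContMDiffAt 𝓘(ℂ, Cm n) 𝓘(ℂ, ℂ) ω g (c.symm (c x)) := by
    rw [c.left_inv hx]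
    exact hg
  have h3 : ContMDiffAt 𝓘(ℂ, Cm n) 𝓘(ℂ, ℂ) ω (fun v => g (c.symm v)) (c x) :=
    ContMDiffAt.comp (c x) h2 h1
  exact (contMDiffAt_iff_contDiffAt.1 h3).analyticAt

/-- the differential in a chart -/
theorem dif_chart {c : OpenPartialHomeomorph X (Cm n)} (hc : c ∈ atlas (Cm n) X) {x : X}
    (hx : x ∈ c.source) {g : X → ℂ} (hg : J.HolAt (Cm n) g x) (ξ : Cm n) :
    J.dif (Cm n) g x ξ = fderiv ℂ (fun v => g (c.symm v)) (c x)
      ((mfderiv 𝓘(ℂ, Cm n) 𝓘(ℂ, Cm n) c x : Cm n →L[ℂ] Cm n) ξ) := by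
  have h1 : MDifferentiableAt 𝓘(ℂ, Cm n) 𝓘(ℂ, Cm n) c x :=
    (sm_chart_md hc hx).mdifferentiableAt (by simp)
  have h2 : MDifferentiableAt 𝓘(ℂ, Cm n) 𝓘(ℂ, ℂ) (fun v => g (c.symm v)) (c x) :=
    (an_chart hc hx hg).differentiableAt.mdifferentiableAt
  have h3 : g =ᶠ[𝓝 x] (fun v => g (c.symm v)) ∘ c := by
    filter_upwards [c.open_source.mem_nhds hx] with z hz
    show g z = g (c.symm (c z))
    rw [c.left_inv hz]
  unfold J.dif
  rw [h3.mfderiv_eq, mfderiv_comp x h2 h1, mfderiv_eq_fderiv]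
  rfl

end gen

section prod
variable {a h : ℕ} {H : Type} [TopologicalSpace H] [ChartedSpace (Cm h) H]

/-- Small sets of codimension two of `ℂ^a × H`, for any structure of a manifold on `ℂ^a × H` such
that the products of the charts of `H` with the identity are charts. -/
theorem sml2_of [ChartedSpace (Cm (a + h)) (Cm a × H)]
    [IsManifold 𝓘(ℂ, Cm (a + h)) ω (Cm a × H)] {A : Set (Cm a × H)}
    (hch : ∀ e ∈ atlas (Cm h) H, ∃ c ∈ atlas (Cm (a + h)) (Cm a × H),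
      (∀ v : Cm a × H, v.2 ∈ e.source → v ∈ c.source) ∧ (∀ v : Cm a × H, c v = ap v.1 (e v.2)) ∧
      ∀ w : Cm (a + h), c.symm w = (p1 w, e.symm (p2 w)))
    (hA : IsSmall2 (Cm (a + h)) A) : H191.RC.Sml2 h A := by
  obtain ⟨hc, N, hN, hcov⟩ := hA
  refine ⟨hc, N, fun k => (hN k).1, hcov, fun k q hq e he hqe => ?_⟩
  obtain ⟨c, hcA, hcs, hcv, hcw⟩ := hch e he
  have hqc := hcs q hqe
  obtain ⟨G, hG, hsurj, hz⟩ := (hN k).2 q hq
  have hcq : c q = (pe a h).symm (q.1, e q.2) := hcv q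
  have hfun : ∀ i, (fun r : Cm a × Cm h => G i (r.1, e.symm r.2)) =
      (fun v => G i (c.symm v)) ∘ (pe a h).symm := by
    intro i
    funext r
    show _ = G i (c.symm ((pe a h).symm r))
    rw [hcw]
    have : (pe a h).symm r = ap r.1 r.2 := rfl
    rw [this, p1_ap, p2_ap]
  have han : ∀ i, AnalyticAt ℂ (fun v => G i (c.symm v)) ((pe a h).symm (q.1, e q.2)) := by
    intro i
    rw [← hcq]
    exact an_chart hcA hqc (hG i)
  refine ⟨fun i r => G i (r.1, e.symm r.2), fun i => ?_, fun t => ?_, ?_⟩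
  · show AnalyticAt ℂ (fun r : Cm a × Cm h => G i (r.1, e.symm r.2)) (q.1, e q.2)
    rw [hfun i]
    exact AnalyticAt.comp (han i)
      (((pe a h).symm : Cm a × Cm h →L[ℂ] Cm (a + h)).analyticAt _)
  · obtain ⟨ξ, hξ⟩ := hsurj t
    obtain ⟨ζ, hζ⟩ : ∃ ζ : Cm (a + h), ζ = (mfderiv 𝓘(ℂ, Cm (a + h)) 𝓘(ℂ, Cm (a + h)) c q :
      Cm (a + h) →L[ℂ] Cm (a + h)) ξ := ⟨_, rfl⟩
    refine ⟨pe a h ζ, ?_⟩
    funext i
    have h1 : t i = J.dif (Cm (a + h)) (G i) q ξ := (congrFun hξ i).symm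
    rw [h1, dif_chart hcA hqc (hG i), ← hζ]
    show fderiv ℂ (fun r : Cm a × Cm h => G i (r.1, e.symm r.2)) (q.1, e q.2) _ = _
    rw [hfun i, fderiv_comp _ (han i).differentiableAt
      ((pe a h).symm : Cm a × Cm h →L[ℂ] Cm (a + h)).differentiableAt]
    have h2 : fderiv ℂ (⇑(pe a h).symm) (q.1, e q.2) =
      ((pe a h).symm : Cm a × Cm h →L[ℂ] Cm (a + h)) := (pe a h).symm.fderiv
    rw [h2, ← hcq]
    show fderiv ℂ (fun v => G i (c.symm v)) (c q) ((pe a h).symm (pe a h ζ)) =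
      fderiv ℂ (fun v => G i (c.symm v)) (c q) ζ
    rw [ContinuousLinearEquiv.symm_apply_apply]
  · have h1 : Tendsto (fun r : Cm a × Cm h => c.symm ((pe a h).symm r)) (𝓝 (q.1, e q.2)) (𝓝 q) := by
      have h2 : Tendsto c.symm (𝓝 (c q)) (𝓝 q) := by
        have := c.continuousAt_symm (c.map_source hqc)
        have h3 : Tendsto c.symm (𝓝 (c q)) (𝓝 (c.symm (c q))) := this
        rwa [c.left_inv hqc] at h3
      rw [hcq] at h2
      exact h2.comp (pe a h).symm.continuous.continuousAt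
    filter_upwards [h1.eventually hz] with r hr hrN i
    have h4 : c.symm ((pe a h).symm r) = (r.1, e.symm r.2) := by
      rw [hcw]
      have : (pe a h).symm r = ap r.1 r.2 := rfl
      rw [this, p1_ap, p2_ap]
    rw [h4] at hr
    exact hr hrN i

end prod

end Vale.Agent.P281.H22.HKT
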