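import Vale.Agent.P281.H64.Gen.SpecN

/-!
# P281, project RADC, class C geometry (helper22): the preimage of a small set of codimension two by
a local isomorphism
-/

open Set Filter Vale.Agent.P281
open scoped Topology ContDiff Manifold

noncomputable section

namespace Vale.Agent.P281.H22.HKT

open Vale.Agent.P281.H64.Gen (IsSmall2)

variable {E : Type} [NormedAddCommGroup E] [NormedSpace ℂ E] {E' : Type} [NormedAddCommGroup E']
  [NormedSpace ℂ E'] {X Y : Type} [TopologicalSpace X]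
  [ChartedSpace E' X] [TopologicalSpace Y] [ChartedSpace E Y]

theorem dif_comp {g : X → Y} {x : X} (hg : ContMDiffAt 𝓘(ℂ, E') 𝓘(ℂ, E) ω g x) {G : Y → ℂ}
    (hG : J.HolAt E G (g x)) (ξ : E') : J.dif E' (fun z => G (g z)) x ξ =
      J.dif E G (g x) ((mfderiv 𝓘(ℂ, E') 𝓘(ℂ, E) g x : E' →L[ℂ] E) ξ) := by
  have h1 : MDifferentiableAt 𝓘(ℂ, E') 𝓘(ℂ, E) g x := hg.mdifferentiableAt (by simp)
  have h2 : MDifferentiableAt 𝓘(ℂ, E) 𝓘(ℂ, ℂ) G (g x) := by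
    have : ContMDiffAt 𝓘(ℂ, E) 𝓘(ℂ, ℂ) ω G (g x) := hG
    exact this.mdifferentiableAt (by simp)
  have h3 : mfderiv 𝓘(ℂ, E') 𝓘(ℂ, ℂ) (G ∘ g) x =
      (mfderiv 𝓘(ℂ, E) 𝓘(ℂ, ℂ) G (g x)).comp (mfderiv 𝓘(ℂ, E') 𝓘(ℂ, E) g x) :=
    mfderiv_comp x h2 h1
  show mfderiv 𝓘(ℂ, E') 𝓘(ℂ, ℂ) (G ∘ g) x ξ = _
  rw [h3]
  rfl

/-- The preimage of a small set of codimension two by a submersion (for instance a local
isomorphism) is small of codimension two. -/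
theorem small2_pre {g : X → Y} (hg : ContMDiff 𝓘(ℂ, E') 𝓘(ℂ, E) ω g)
    (hs : ∀ x, Function.Surjective (mfderiv 𝓘(ℂ, E') 𝓘(ℂ, E) g x)) {B : Set Y}
    (hB : IsSmall2 E B) : IsSmall2 E' (g ⁻¹' B) := by
  obtain ⟨hc, N, hN, hcov⟩ := hB
  refine ⟨hc.preimage hg.continuous, fun k => g ⁻¹' (N k), fun k =>
    ⟨(hN k).1.preimage hg.continuous, fun x hx => ?_⟩, ?_⟩
  · obtain ⟨G, hG, hsurj, hz⟩ := (hN k).2 (g x) hx
    refine ⟨fun i z => G i (g z), fun i => ?_, fun t => ?_, ?_⟩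
    · have h1 : ContMDiffAt 𝓘(ℂ, E) 𝓘(ℂ, ℂ) ω (G i) (g x) := hG i
      exact ContMDiffAt.comp x h1 (hg x)
    · obtain ⟨ζ, hζ⟩ := hsurj t
      obtain ⟨ξ, hξ⟩ : ∃ ξ : E', (mfderiv 𝓘(ℂ, E') 𝓘(ℂ, E) g x : E' →L[ℂ] E) ξ = ζ := hs x ζ
      refine ⟨ξ, ?_⟩
      funext i
      rw [← congrFun hζ i]
      exact (dif_comp (hg x) (hG i) ξ).trans (congrArg (J.dif E (G i) (g x)) hξ)
    · exact (hg.continuous.tendsto x).eventually hz
  · rw [← preimage_iUnion]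
    exact preimage_mono hcov

end Vale.Agent.P281.H22.HKT
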