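import Vale.Agent.P281.H399.HKT.Gen
import Vale.Agent.P281.H399.QT.Cmp
import Vale.Agent.P281.H22.HKT.Cnt
import Vale.Agent.P281.H83.HKT.Spec

/-!
# P281, project T-HKT (helper22), block BAD, 1: additive functions and `GenU` on isomorphic
coverings; `NDegU` may be checked in any model
-/

open Set Filter Metric Vale.Agent.P281 Vale.Agent.P281.H713 Vale.Agent.P272.K
open scoped Topology ContDiff Manifold ComplexConjugate ComplexOrder

set_option linter.unusedSectionVars false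

noncomputable section

namespace Vale.Agent.P281.H22.HKT

open Vale.Agent.P281.H64 (Mark)
open Vale.Agent.P281.H64.TK Vale.Agent.P281.H64.TK.TS Vale.Agent.P281.H83.HK
open Vale.Agent.P281.H603.K Vale.Agent.P281.H864.K
open Vale.Agent.P281.H603.TE (sub fsub fW core Cmp res ccs kah_fW compareE)
open Vale.Agent.P281.H399.QT (Qs One1 pj quo fquo cmp_quo qmap kah_quo kfam_quo t2_quo)
open Vale.Agent.P281.H399.HK (pbM)
open Vale.Agent.P281.H399.HKT (pbU genU_mul dt_mul)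
open Vale.Agent.P281.H83.HKT

attribute [local instance] ccs

section card
variable {d : ℕ} {E Γ : Type} [TopologicalSpace E] [Group Γ] [MulAction Γ E] {S : Sheets d E Γ}
  {g g' : ℕ} {F : E → Fin g → ℂ} {c : Γ → Fin g → ℂ} {F' : E → Fin g' → ℂ} {c' : Γ → Fin g' → ℂ}

theorem bas_card_le (h : IsBas S F c) (h' : IsBas S F' c') : g ≤ g' := by
  choose s hs using fun j => h'.span _ _ (h.add j)
  by_contra hlt
  push Not at hlt
  have h1 : LinearMap.ker (Matrix.mulVecLin (Matrix.of s).transpose) ≠ ⊥ :=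
    LinearMap.ker_ne_bot_of_finrank_lt (by simpa using hlt)
  obtain ⟨v, hv, hv0⟩ := Submodule.exists_mem_ne_zero_of_ne_bot h1
  refine hv0 (h.indep v fun γ => ?_)
  have h2 : ∀ k, ∑ j, s j k * v j = 0 := fun k => congrFun (LinearMap.mem_ker.1 hv) k
  simp_rw [hs, Finset.mul_sum]
  rw [Finset.sum_comm]
  refine Finset.sum_eq_zero fun k _ => ?_
  rw [← zero_mul (c' γ k), ← h2 k, Finset.sum_mul]
  exact Finset.sum_congr rfl fun j _ => by ring

/-- the number of the functions -/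
theorem bas_card (h : IsBas S F c) (h' : IsBas S F' c') : g = g' :=
  le_antisymm (bas_card_le h h') (bas_card_le h' h)

end card

section cmp
variable {d g : ℕ} {E Γ E' Γ' : Type} [TopologicalSpace E] [Group Γ] [MulAction Γ E]
  [ContinuousConstSMul Γ E] [TopologicalSpace E'] [Group Γ'] [MulAction Γ' E']
  [ContinuousConstSMul Γ' E'] {S : Sheets d E Γ}
  {w : Fin S.N → Cm d → Matrix (Fin d) (Fin d) ℂ}
  {S' : Sheets d E' Γ'} {w' : Fin S'.N → Cm d → Matrix (Fin d) (Fin d) ℂ} {τ : E ≃ₜ E'}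
  {ρ : Γ ≃* Γ'}

/-- **additive functions on isomorphic coverings** -/
theorem isBas_cmp (h : Cmp S w S' w' τ ρ) {F' : E' → Fin g → ℂ} {c' : Γ' → Fin g → ℂ}
    (hb : IsBas S' F' c') : IsBas S (fun e => F' (τ e)) (fun γ => c' (ρ γ)) where
  add j := add_compat (holCompat_symm h.hol) ((hb.add j).pull (hτ := h.eqv))
  indep s hs := hb.indep s fun γ => by
    have := hs (ρ.symm γ)
    rwa [ρ.apply_symm_apply] at this
  span f b hf := by
    have h1 : Add S' (fun e => f (τ.symm e)) (fun γ => b (ρ.symm γ)) := by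
      have h2 : Add (S'.pull τ ρ h.eqv) (fun e => (fun e' => f (τ.symm e')) (τ e))
          (fun γ => b γ) := by
        have h3 := add_compat h.hol hf
        simpa using h3
      exact Add.of_pull (τ := τ) (ρ := ρ) (hτ := h.eqv) (h := fun e' => f (τ.symm e')) h2
    obtain ⟨s, hs⟩ := hb.span _ _ h1
    exact ⟨s, fun γ => by
      have := hs (ρ γ)
      rwa [ρ.symm_apply_apply] at this⟩

end cmp

section pull
variable {a d : ℕ} {E Γ E' Γ' : Type} [TopologicalSpace E] [Group Γ] [MulAction Γ E]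
  [TopologicalSpace E'] [Group Γ'] [MulAction Γ' E'] [Subsingleton Γ] [Subsingleton Γ']
  {S' : Sheets d E' Γ'} {τ : E ≃ₜ E'} {ρ : Γ ≃* Γ'} {hτ : ∀ γ e, τ (γ • e) = ρ γ • τ e}

theorem hol1_pull_iff {b : ℕ} {u : Fin S'.N → Cm d → Matrix (Fin b) (Fin d) ℂ} :
    Hol1 S' u ↔ Hol1 (S'.pull τ ρ hτ) u := by
  refine ⟨fun H => ⟨H.hol, H.closed, fun i j z hz z' hz' θ a b c =>
    H.change i j z hz z' hz' θ a b ?_⟩, fun H => ⟨H.hol, H.closed,
    fun i j z hz z' hz' θ a b c => H.change i j z hz z' hz' θ a b ?_⟩⟩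
  · filter_upwards [c] with u hu
    exact τ.symm.injective hu
  · filter_upwards [c] with u hu
    exact congrArg τ.symm hu

theorem hol2_pull_iff {s : Fin S'.N → Cm d → Matrix (Fin d) (Fin d) ℂ} :
    Hol2 S' s ↔ Hol2 (S'.pull τ ρ hτ) s := by
  refine ⟨fun H => ⟨H.hol, H.alt, H.closed, fun i j z hz z' hz' θ a b c =>
    H.change i j z hz z' hz' θ a b ?_⟩, fun H => ⟨H.hol, H.alt, H.closed,
    fun i j z hz z' hz' θ a b c => H.change i j z hz z' hz' θ a b ?_⟩⟩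
  · filter_upwards [c] with u hu
    exact τ.symm.injective hu
  · filter_upwards [c] with u hu
    exact congrArg τ.symm hu

theorem genU_pull {u : Fin S'.N → Cm d → Matrix (Fin a) (Fin d) ℂ}
    {s : Fin S'.N → Cm d → Matrix (Fin d) (Fin d) ℂ} (h : GenU S' u s) :
    GenU (S'.pull τ ρ hτ) u s :=
  ⟨hol1_pull_iff.1 h.one, hol2_pull_iff.1 h.form, h.ne,
    fun v hv => h.span1 v (hol1_pull_iff.2 hv), fun s' hs' => h.span2 s' (hol2_pull_iff.2 hs')⟩

end pull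

section gen
variable {a d : ℕ} {E Γ E' Γ' : Type} [TopologicalSpace E] [Group Γ] [MulAction Γ E]
  [ContinuousConstSMul Γ E] [TopologicalSpace E'] [Group Γ'] [MulAction Γ' E']
  [ContinuousConstSMul Γ' E'] {S : Sheets d E Γ}
  {w : Fin S.N → Cm d → Matrix (Fin d) (Fin d) ℂ}
  {S' : Sheets d E' Γ'} {w' : Fin S'.N → Cm d → Matrix (Fin d) (Fin d) ℂ} {τ : E ≃ₜ E'}
  {ρ : Γ ≃* Γ'}

/-- **`GenU` on isomorphic coverings** -/
theorem genU_cmp (h : Cmp S w S' w' τ ρ) {u' : Fin (quo S').N → Cm d → Matrix (Fin a) (Fin d) ℂ}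
    {s' : Fin (quo S').N → Cm d → Matrix (Fin d) (Fin d) ℂ} (hG : GenU (quo S') u' s') :
    ∃ (u : Fin (quo S).N → Cm d → Matrix (Fin a) (Fin d) ℂ)
      (s : Fin (quo S).N → Cm d → Matrix (Fin d) (Fin d) ℂ), GenU (quo S) u s :=
  ⟨_, _, H399.HKT.genU_of (cmp_quo h).hol (genU_pull hG)⟩

end gen

section basis
variable {a d : ℕ} {E Γ : Type} [TopologicalSpace E] [Group Γ] [MulAction Γ E] [Subsingleton Γ]
  {S : Sheets d E Γ}

/-- `b` closed 1-forms are combinations of the basis -/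
theorem rows_of {u : Fin S.N → Cm d → Matrix (Fin a) (Fin d) ℂ}
    (hspan : ∀ v : Fin S.N → Cm d → Matrix (Fin 1) (Fin d) ℂ, Hol1 S v →
      ∃ c : Matrix (Fin 1) (Fin a) ℂ, ∀ i, ∀ z ∈ ball (0 : Cm d) 3, v i z = c * u i z) {b : ℕ}
    {v : Fin S.N → Cm d → Matrix (Fin b) (Fin d) ℂ} (hv : Hol1 S v) :
    ∃ g : Matrix (Fin b) (Fin a) ℂ, ∀ i, ∀ z ∈ ball (0 : Cm d) 3, v i z = g * u i z := by
  have h1 : ∀ j : Fin b, Hol1 S (fun i z => Matrix.of fun (_ : Fin 1) k => v i z j k) := by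
    intro j
    refine ⟨fun i _ k => hv.hol i j k, fun i z hz _ k l => hv.closed i z hz j k l,
      fun i i' z hz z' hz' θ h1 h2 h3 => ?_⟩
    have h4 := hv.change i i' z hz z' hz' θ h1 h2 h3
    ext r k
    have h5 := congrFun (congrFun h4 j) k
    rw [Matrix.mul_apply] at h5 ⊢
    exact h5
  choose c hc using fun j => hspan _ (h1 j)
  refine ⟨Matrix.of fun j k => c j 0 k, fun i z hz => ?_⟩
  ext j k
  have h2 := congrFun (congrFun (hc j i z hz) 0) k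
  rw [Matrix.mul_apply] at h2 ⊢
  exact h2

/-- **change of the basis of the 1-forms** -/
theorem genU_basis {u₁ u : Fin S.N → Cm d → Matrix (Fin a) (Fin d) ℂ}
    {s : Fin S.N → Cm d → Matrix (Fin d) (Fin d) ℂ} (hG : GenU S u₁ s) (hu : Hol1 S u)
    (hspan : ∀ v : Fin S.N → Cm d → Matrix (Fin 1) (Fin d) ℂ, Hol1 S v →
      ∃ c : Matrix (Fin 1) (Fin a) ℂ, ∀ i, ∀ z ∈ ball (0 : Cm d) 3, v i z = c * u i z) :
    GenU S u s := by
  obtain ⟨g, hg⟩ := rows_of hspan hG.one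
  have hdet : IsUnit g.det := by
    rw [isUnit_iff_ne_zero]
    intro h0
    obtain ⟨i, z, hz, hne⟩ := hG.ne
    refine hne ?_
    rw [hg i z hz, dt_mul, h0]
    simp
  refine genU_mul hG (g := g⁻¹) (Matrix.isUnit_nonsing_inv_det g hdet) hu fun i z hz => ?_
  rw [hg i z hz, ← Matrix.mul_assoc, Matrix.nonsing_inv_mul _ hdet, Matrix.one_mul]

end basis

section model
variable {p d a m : ℕ} {Z Y : Type} [TopologicalSpace Z] [T2Space Z] [ChartedSpace (Cm (p + d)) Z]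
  [IsManifold 𝓘(ℂ, Cm (p + d)) ω Z] [TopologicalSpace Y] [T2Space Y] [ChartedSpace (Cm p) Y]
  [IsManifold 𝓘(ℂ, Cm p) ω Y]

/-- **`NDegU` in any model, 1** -/
theorem NDegU.iso (I : Inputs) (hd : 0 < d) {f : Z → Y}
    (hf : ContMDiff 𝓘(ℂ, Cm (p + d)) 𝓘(ℂ, Cm p) ω f)
    {w : Chart (p + d) Z → Cm (p + d) → Matrix (Fin (p + d)) (Fin (p + d)) ℂ} (hw : IsKahler w)
    {y : Y} (h : NDegU p d a m f y)
    {E' Γ' : Type} [TopologicalSpace E'] [T2Space E'] [SimplyConnectedSpace E']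
    [Group Γ'] [MulAction Γ' E'] [ContinuousConstSMul Γ' E'] [(core Γ' m).FiniteIndex]
    {𝓕' : Fam p d E' Γ'} {q' : Cm p → E' → Z} {χ' : OpenPartialHomeomorph Y (Cm p)}
    (M' : Model (n := p + d) f 𝓕' χ' q') {t' : Cm p} (ht' : t' ∈ 𝓕'.T) (hy : χ'.symm t' = y) :
    (∃ (F : E' → Fin a → ℂ) (c : core Γ' m → Fin a → ℂ),
      IsBas (sub (𝓕'.at t' ht') (core Γ' m)) F c) ∧
    ∃ (u : Fin (quo (sub (𝓕'.at t' ht') (core Γ' m))).N → Cm d → Matrix (Fin a) (Fin d) ℂ)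
      (s : Fin (quo (sub (𝓕'.at t' ht') (core Γ' m))).N → Cm d → Matrix (Fin d) (Fin d) ℂ),
      GenU (quo (sub (𝓕'.at t' ht') (core Γ' m))) u s := by
  obtain ⟨E, Γ, _, _, _, _, _, _, _, 𝓕, q, χ, t, ht, M, hy', F, c, hb, s, hG⟩ := h
  obtain ⟨W, hW, hK⟩ := I.w p d Z Y f w E Γ 𝓕 q χ hf M hw
  obtain ⟨W', hW', hK'⟩ := I.w p d Z Y f w E' Γ' 𝓕' q' χ' hf M' hw
  obtain ⟨τ, ρ, -, -, hc⟩ := compareE I hd hf hw M' M hW' hW ht' ht (by rw [hy, hy']) m
  exact ⟨⟨_, _, isBas_cmp hc hb⟩, genU_cmp hc hG⟩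

/-- **`NDegU` in any model, 2** -/
theorem NDegU.all (hB : BasTStmt) (I : Inputs) (hd : 0 < d) {f : Z → Y}
    (hf : ContMDiff 𝓘(ℂ, Cm (p + d)) 𝓘(ℂ, Cm p) ω f)
    {w : Chart (p + d) Z → Cm (p + d) → Matrix (Fin (p + d)) (Fin (p + d)) ℂ} (hw : IsKahler w)
    {y : Y} (h : NDegU p d a m f y)
    {E' Γ' : Type} [TopologicalSpace E'] [T2Space E'] [SimplyConnectedSpace E']
    [Group Γ'] [MulAction Γ' E'] [ContinuousConstSMul Γ' E'] [(core Γ' m).FiniteIndex]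
    {𝓕' : Fam p d E' Γ'} {q' : Cm p → E' → Z} {χ' : OpenPartialHomeomorph Y (Cm p)}
    (M' : Model (n := p + d) f 𝓕' χ' q') {t' : Cm p} (ht' : t' ∈ 𝓕'.T) (hy : χ'.symm t' = y)
    {W' : Fin 𝓕'.N → Cm p × Cm d → Matrix (Fin p ⊕ Fin d) (Fin p ⊕ Fin d) ℂ} (hK' : KFam 𝓕' W')
    (Mk : Mark (core Γ' m) (a + a)) {F : E' → Fin a → ℂ} {c : core Γ' m → Fin a → ℂ}
    (hb : IsBas (sub (𝓕'.at t' ht') (core Γ' m)) F c) :
    ∃ s, GenU (quo (sub (𝓕'.at t' ht') (core Γ' m)))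
      (dF (sub (𝓕'.at t' ht') (core Γ' m)) F) s := by
  obtain ⟨-, u, s, hG⟩ := NDegU.iso I hd hf hw h M' ht' hy
  obtain ⟨h1, h2, -⟩ := hB d a E' (core Γ' m) (sub (𝓕'.at t' ht') (core Γ' m))
    (fW (core Γ' m) W' t') Mk F c hd (kah_fW _ hK' ht') hb
  exact ⟨s, genU_basis hG h1 h2⟩

/-- the number of the additive functions in any model -/
theorem NDegU.card (I : Inputs) (hd : 0 < d) {f : Z → Y}
    (hf : ContMDiff 𝓘(ℂ, Cm (p + d)) 𝓘(ℂ, Cm p) ω f)
    {w : Chart (p + d) Z → Cm (p + d) → Matrix (Fin (p + d)) (Fin (p + d)) ℂ} (hw : IsKahler w)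
    {y : Y} (h : NDegU p d a m f y)
    {E' Γ' : Type} [TopologicalSpace E'] [T2Space E'] [SimplyConnectedSpace E']
    [Group Γ'] [MulAction Γ' E'] [ContinuousConstSMul Γ' E'] [(core Γ' m).FiniteIndex]
    {𝓕' : Fam p d E' Γ'} {q' : Cm p → E' → Z} {χ' : OpenPartialHomeomorph Y (Cm p)}
    (M' : Model (n := p + d) f 𝓕' χ' q') {t' : Cm p} (ht' : t' ∈ 𝓕'.T) (hy : χ'.symm t' = y)
    {g : ℕ} {F : E' → Fin g → ℂ} {c : core Γ' m → Fin g → ℂ}
    (hb : IsBas (sub (𝓕'.at t' ht') (core Γ' m)) F c) : g = a := by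
  obtain ⟨⟨F', c', hb'⟩, -⟩ := NDegU.iso I hd hf hw h M' ht' hy
  exact bas_card hb hb'

end model

end Vale.Agent.P281.H22.HKT
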